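import Vale.Agent.P127.Smooth.Defs

/-!
Ball averages, their `L^p` bound, and the comparison of tube averages with line integrals of ball
averages.
-/

open MeasureTheory Metric Function
open scoped ENNReal RealInnerProductSpace

namespace Vale.Agent.P127.Smooth

variable {n : ℕ}

/-- `δ^{-n}` times the integral of `f` over the ball of radius `R δ` for the maximum norm. -/
noncomputable def avg (R δ : ℝ) (f : (Fin n → ℝ) → ℝ≥0∞) (x : Fin n → ℝ) : ℝ≥0∞ :=
  (ENNReal.ofReal δ ^ n)⁻¹ * ∫⁻ y in closedBall x (R * δ), f y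

theorem measurableSet_near (ρ : ℝ) :
    MeasurableSet {q : (Fin n → ℝ) × (Fin n → ℝ) | q.2 ∈ closedBall q.1 ρ} :=
  (isClosed_le (continuous_snd.dist continuous_fst) continuous_const).measurableSet

theorem measurable_ball_integral (ρ : ℝ) {f : (Fin n → ℝ) → ℝ≥0∞} (hf : Measurable f) :
    Measurable fun x => ∫⁻ y in closedBall x ρ, f y := by
  simp_rw [← lintegral_indicator measurableSet_closedBall]
  exact ((hf.comp measurable_snd).indicator (measurableSet_near ρ)).lintegral_prod_right'

theorem measurable_avg (R δ : ℝ) {f : (Fin n → ℝ) → ℝ≥0∞} (hf : Measurable f) :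
    Measurable (avg R δ f) :=
  (measurable_ball_integral _ hf).const_mul _

theorem avg_mono_ball {R R' δ : ℝ} (f : (Fin n → ℝ) → ℝ≥0∞) {x x' : Fin n → ℝ}
    (h : dist x x' + R * δ ≤ R' * δ) : avg R δ f x ≤ avg R' δ f x' :=
  mul_le_mul_right (lintegral_mono_set (closedBall_subset_closedBall' (by linarith))) _

theorem lintegral_ball_integral {ρ : ℝ} (hρ : 0 ≤ ρ) {f : (Fin n → ℝ) → ℝ≥0∞} (hf : Measurable f) :
    ∫⁻ x, ∫⁻ y in closedBall x ρ, f y = ENNReal.ofReal ((2 * ρ) ^ n) * ∫⁻ y, f y := by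
  simp_rw [← lintegral_indicator measurableSet_closedBall]
  rw [lintegral_lintegral_swap]
  · rw [← lintegral_const_mul _ hf]
    refine lintegral_congr fun y => ?_
    have e : ∀ x, (closedBall x ρ).indicator f y = (closedBall y ρ).indicator (fun _ => f y) x := by
      intro x; simp [Set.indicator, mem_closedBall, dist_comm]
    simp only [e]
    rw [lintegral_indicator_const measurableSet_closedBall, Real.volume_pi_closedBall _ hρ,
      Fintype.card_fin, mul_comm]
  · exact ((hf.comp measurable_snd).indicator (measurableSet_near ρ)).aemeasurable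

theorem lintegral_avg_rpow_le {R p : ℝ} (hR : 0 < R) (hn : 2 ≤ n) (hp : (n : ℝ) < p) :
    ∃ C : ℝ≥0∞, C ≠ ⊤ ∧ ∀ δ : ℝ, 0 < δ → ∀ f : (Fin n → ℝ) → ℝ≥0∞, Measurable f →
      ∫⁻ x, avg R δ f x ^ p ≤
        C * (ENNReal.ofReal δ ^ (-(p - n))) * (∫⁻ y, f y ^ (n : ℝ)) ^ (p / n) := by
  have hn0 : (0 : ℝ) < n := by exact_mod_cast (by omega : 0 < n)
  have hn1 : (1 : ℝ) < n := by exact_mod_cast hn
  have hp0 : 0 < p := hn0.trans hp
  set K : ℝ≥0∞ := ENNReal.ofReal ((2 * R) ^ n) with hKdef
  have hK : K ≠ ⊤ := ENNReal.ofReal_ne_top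
  let r : ℝ := (p - n) / n
  have hr : 0 ≤ r := div_nonneg (by linarith) hn0.le
  refine ⟨(K ^ ((n : ℝ) - 1)) ^ r * (K ^ ((n : ℝ) - 1) * K),
    ENNReal.mul_ne_top (ENNReal.rpow_ne_top_of_nonneg hr (ENNReal.rpow_ne_top_of_nonneg (by linarith) hK))
      (ENNReal.mul_ne_top (ENNReal.rpow_ne_top_of_nonneg (by linarith) hK) hK),
    fun δ hδ f hf => ?_⟩
  set d := ENNReal.ofReal δ with hddef
  have hd0 : d ≠ 0 := by simp [d, hδ]
  have hdt : d ≠ ⊤ := ENNReal.ofReal_ne_top
  have hdn0 : d ^ n ≠ 0 := pow_ne_zero _ hd0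
  have hdnt : d ^ n ≠ ⊤ := ENNReal.pow_ne_top hdt
  have hvol : ∀ x : Fin n → ℝ, volume (closedBall x (R * δ)) = K * d ^ n := by
    intro x
    rw [Real.volume_pi_closedBall _ (by positivity), Fintype.card_fin, hKdef, hddef,
      ← ENNReal.ofReal_pow hδ.le, ← ENNReal.ofReal_mul (by positivity)]
    congr 1; rw [← mul_pow]; ring
  set F : ℝ≥0∞ := ∫⁻ y, f y ^ (n : ℝ) with hFdef
  have hfn : Measurable fun y => f y ^ (n : ℝ) := hf.pow_const _
  have hhol : ∀ x, avg R δ f x ^ (n : ℝ) ≤
      K ^ ((n : ℝ) - 1) * (d ^ n)⁻¹ * ∫⁻ y in closedBall x (R * δ), f y ^ (n : ℝ) := by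
    intro x
    have hc := Real.HolderConjugate.conjExponent hn1
    have h := ENNReal.lintegral_mul_le_Lp_mul_Lq (volume.restrict (closedBall x (R * δ))) hc
      (f := f) (g := fun _ => 1) hf.aemeasurable measurable_const.aemeasurable
    simp only [Pi.mul_apply, mul_one, ENNReal.one_rpow, lintegral_const, one_mul,
      Measure.restrict_apply_univ, hvol] at h
    have h2 := ENNReal.rpow_le_rpow h hn0.le
    rw [ENNReal.mul_rpow_of_nonneg _ _ hn0.le, ← ENNReal.rpow_mul, ← ENNReal.rpow_mul,
      one_div_mul_cancel hn0.ne', ENNReal.rpow_one,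
      show 1 / Real.conjExponent (n : ℝ) * n = (n : ℝ) - 1 by
        rw [Real.conjExponent]; field_simp] at h2
    have e : avg R δ f x ^ (n : ℝ) = ((d ^ n)⁻¹) ^ (n : ℝ) *
        (∫⁻ y in closedBall x (R * δ), f y) ^ (n : ℝ) := ENNReal.mul_rpow_of_nonneg _ _ hn0.le
    rw [e]
    refine (mul_le_mul_right h2 _).trans_eq ?_
    rw [ENNReal.mul_rpow_of_nonneg _ _ (by linarith : (0 : ℝ) ≤ (n : ℝ) - 1),
      ENNReal.inv_rpow, ← ENNReal.rpow_neg,
      show ((d ^ n)⁻¹ : ℝ≥0∞) = (d ^ n) ^ (-1 : ℝ) from (ENNReal.rpow_neg_one _).symm,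
      show (-1 : ℝ) = -(n : ℝ) + ((n : ℝ) - 1) by ring, ENNReal.rpow_add _ _ hdn0 hdnt]
    ring
  have hsup : ∀ x, avg R δ f x ^ (n : ℝ) ≤ K ^ ((n : ℝ) - 1) * (d ^ n)⁻¹ * F := fun x =>
    (hhol x).trans (mul_le_mul_right (setLIntegral_le_lintegral _ _) _)
  calc ∫⁻ x, avg R δ f x ^ p
      ≤ ∫⁻ x, (K ^ ((n : ℝ) - 1) * (d ^ n)⁻¹ * F) ^ r *
          (K ^ ((n : ℝ) - 1) * (d ^ n)⁻¹ * ∫⁻ y in closedBall x (R * δ), f y ^ (n : ℝ)) := by
        refine lintegral_mono fun x => ?_
        have e : avg R δ f x ^ p = (avg R δ f x ^ (n : ℝ)) ^ r * avg R δ f x ^ (n : ℝ) := by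
          rw [← ENNReal.rpow_mul, ← ENNReal.rpow_add_of_nonneg _ _ (mul_nonneg hn0.le hr) hn0.le]
          congr 1
          simp only [r]; field_simp; ring
        rw [e]
        exact mul_le_mul' (ENNReal.rpow_le_rpow (hsup x) hr) (hhol x)
    _ = (K ^ ((n : ℝ) - 1) * (d ^ n)⁻¹ * F) ^ r *
          (K ^ ((n : ℝ) - 1) * (d ^ n)⁻¹ * (K * d ^ n * F)) := by
        rw [lintegral_const_mul _ ((measurable_ball_integral _ hfn).const_mul _),
          lintegral_const_mul _ (measurable_ball_integral _ hfn),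
          lintegral_ball_integral (by positivity) hfn, hKdef, hddef, ← ENNReal.ofReal_pow hδ.le,
          ← ENNReal.ofReal_mul (p := (2 * R) ^ n) (by positivity),
          show (2 * R) ^ n * δ ^ n = (2 * (R * δ)) ^ n by rw [← mul_pow]; ring]
    _ = _ := by
        have e1 : (d ^ n)⁻¹ * d ^ n = 1 := ENNReal.inv_mul_cancel hdn0 hdnt
        have e2 : ((d ^ n)⁻¹) ^ r = d ^ (-(p - n)) := by
          rw [← ENNReal.rpow_natCast, ← ENNReal.rpow_neg, ← ENNReal.rpow_mul]
          congr 1
          simp only [r]; field_simp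
        have e3 : F ^ r * F = F ^ (p / n) := by
          conv_lhs => arg 2; rw [← ENNReal.rpow_one F]
          rw [← ENNReal.rpow_add_of_nonneg _ _ hr zero_le_one]
          congr 1
          simp only [r]; field_simp; ring
        rw [ENNReal.mul_rpow_of_nonneg _ _ hr, ENNReal.mul_rpow_of_nonneg _ _ hr, e2, ← e3]
        calc _ = (K ^ ((n : ℝ) - 1)) ^ r * (K ^ ((n : ℝ) - 1) * K) * d ^ (-(p - n))
              * (F ^ r * F) * ((d ^ n)⁻¹ * d ^ n) := by ring
          _ = _ := by rw [e1, mul_one]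

/-- A tube average is at most a constant times the line integral of ball averages. -/
theorem tube_avg_le (n : ℕ) : ∃ C : ℝ≥0∞, C ≠ ⊤ ∧
    ∀ δ : ℝ, 0 < δ → δ < 1 → ∀ a e : EuclideanSpace ℝ (Fin n), ‖e‖ = 1 →
    ∀ f : EuclideanSpace ℝ (Fin n) → ℝ≥0∞, Measurable f →
      (∫⁻ y in tube δ a e, f y) / volume (tube δ a e) ≤
        C * ∫⁻ s in Set.Icc (-1 : ℝ) 1, avg 2 δ (fun z => f (WithLp.toLp 2 z)) (a + s • e).ofLp := by
  set V : ℝ≥0∞ := ENNReal.ofReal (1 / 2) * ENNReal.ofReal ((1 / 4 : ℝ) ^ n) *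
    volume (ball (0 : EuclideanSpace ℝ (Fin n)) 1) with hVdef
  have hV : V ≠ 0 := by
    simp only [V, ne_eq, mul_eq_zero, ENNReal.ofReal_eq_zero, not_or, not_le]
    exact ⟨⟨by norm_num, by positivity⟩, (measure_ball_pos volume _ one_pos).ne'⟩
  refine ⟨V⁻¹, ENNReal.inv_ne_top.2 hV, fun δ hδ hδ1 a e he f hf => ?_⟩
  set T := tube δ a e
  set d := ENNReal.ofReal δ with hddef
  have hd0 : d ≠ 0 := by simp [d, hδ]
  have hdt : d ≠ ⊤ := ENNReal.ofReal_ne_top
  have hnear : ∀ ρ : ℝ, MeasurableSet {q : ℝ × EuclideanSpace ℝ (Fin n) |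
      q.2 ∈ closedBall (a + q.1 • e) ρ} := fun ρ =>
    (isClosed_le (continuous_snd.dist (by fun_prop)) continuous_const).measurableSet
  -- the volume of the tube
  have hlow : V * d ^ n ≤ d * volume T := by
    have hin : ∀ s ∈ Set.Icc (-(1 / 4) : ℝ) (1 / 4), ∀ y ∈ closedBall (a + s • e) (δ / 4),
        y ∈ T ∧ |s - ⟪y - a, e⟫| ≤ δ / 4 := by
      intro s hs y hy
      set w := y - (a + s • e)
      have hw : ‖w‖ ≤ δ / 4 := by simpa [w, dist_eq_norm] using mem_closedBall.1 hy
      have hwe : |⟪w, e⟫| ≤ δ / 4 := by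
        refine (abs_real_inner_le_norm _ _).trans ?_; simpa [he] using hw
      have hya : y - a = w + s • e := by simp only [w]; abel
      have ht : ⟪y - a, e⟫ = ⟪w, e⟫ + s := by
        rw [hya, inner_add_left, real_inner_smul_left, real_inner_self_eq_norm_sq, he]; ring
      rw [abs_le] at hwe
      refine ⟨⟨⟪y - a, e⟫, w - ⟪w, e⟫ • e, ?_, ?_, ?_, ?_⟩, ?_⟩
      · rw [ht, abs_le]; constructor <;> linarith [hs.1, hs.2]
      · rw [inner_sub_left, real_inner_smul_left, real_inner_self_eq_norm_sq, he]; ring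
      · refine (norm_sub_le _ _).trans ?_
        rw [norm_smul, he, mul_one, Real.norm_eq_abs]
        linarith [abs_le.2 hwe]
      · rw [ht, add_smul]; simp [w]; abel
      · rw [ht, abs_le]; constructor <;> linarith
    calc V * d ^ n = ∫⁻ _s in Set.Icc (-(1 / 4) : ℝ) (1 / 4),
          ENNReal.ofReal ((δ / 4) ^ n) * volume (ball (0 : EuclideanSpace ℝ (Fin n)) 1) := by
          rw [setLIntegral_const, Real.volume_Icc, hVdef, hddef, ← ENNReal.ofReal_pow hδ.le,
            show (δ / 4) ^ n = (1 / 4 : ℝ) ^ n * δ ^ n by rw [← mul_pow]; ring,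
            ENNReal.ofReal_mul (by positivity), show (1 / 4 : ℝ) - -(1 / 4) = 1 / 2 by norm_num]
          ring
      _ = ∫⁻ s in Set.Icc (-(1 / 4) : ℝ) (1 / 4),
            ∫⁻ y, (closedBall (a + s • e) (δ / 4)).indicator 1 y := by
          refine lintegral_congr fun s => ?_
          rw [lintegral_indicator_one measurableSet_closedBall,
            Measure.addHaar_closedBall _ _ (by positivity : 0 ≤ δ / 4), finrank_euclideanSpace_fin]
      _ = ∫⁻ y, ∫⁻ s in Set.Icc (-(1 / 4) : ℝ) (1 / 4),
            (closedBall (a + s • e) (δ / 4)).indicator 1 y :=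
          lintegral_lintegral_swap ((measurable_one.indicator (hnear _)).aemeasurable)
      _ ≤ ∫⁻ y, (toMeasurable volume T).indicator (fun _ => d) y := by
          refine lintegral_mono fun y => ?_
          by_cases hy : y ∈ toMeasurable volume T
          · rw [Set.indicator_of_mem hy]
            calc _ ≤ ∫⁻ s in Set.Icc (-(1 / 4) : ℝ) (1 / 4),
                  (Set.Icc (⟪y - a, e⟫ - δ / 4) (⟪y - a, e⟫ + δ / 4)).indicator 1 s := by
                  refine setLIntegral_mono' measurableSet_Icc fun s hs => ?_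
                  by_cases hys : y ∈ closedBall (a + s • e) (δ / 4)
                  · have := abs_le.1 (hin s hs y hys).2
                    rw [Set.indicator_of_mem hys, Set.indicator_of_mem]
                    · simp
                    · constructor <;> linarith
                  · simp [Set.indicator_of_notMem hys]
              _ ≤ _ := setLIntegral_le_lintegral _ _
              _ ≤ d := by
                  rw [lintegral_indicator_one measurableSet_Icc, Real.volume_Icc]
                  exact ENNReal.ofReal_le_ofReal (by linarith)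
          · rw [Set.indicator_of_notMem hy]
            refine le_of_eq (setLIntegral_eq_zero measurableSet_Icc fun s hs => ?_)
            by_cases hys : y ∈ closedBall (a + s • e) (δ / 4)
            · exact absurd (subset_toMeasurable _ _ (hin s hs y hys).1) hy
            · simp [Set.indicator_of_notMem hys]
      _ = d * volume T := by
          rw [lintegral_indicator_const (measurableSet_toMeasurable _ _), measure_toMeasurable]
  -- the integral over the tube
  have hupp : d * ∫⁻ y in T, f y ≤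
      d ^ n * ∫⁻ s in Set.Icc (-1 : ℝ) 1, avg 2 δ (fun z => f (WithLp.toLp 2 z)) (a + s • e).ofLp := by
    have hmeas : Measurable fun q : ℝ × EuclideanSpace ℝ (Fin n) =>
        (closedBall (a + q.1 • e) (2 * δ)).indicator f q.2 :=
      (hf.comp measurable_snd).indicator (hnear _)
    calc d * ∫⁻ y in T, f y = ∫⁻ y in T, d * f y := (lintegral_const_mul _ hf).symm
      _ ≤ ∫⁻ y in T, ∫⁻ s in Set.Icc (-1 : ℝ) 1, (closedBall (a + s • e) (2 * δ)).indicator f y := by
          refine setLIntegral_mono hmeas.lintegral_prod_left' fun y hy => ?_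
          obtain ⟨t, u, ht, hu, hun, rfl⟩ := hy
          rw [abs_le] at ht
          calc d * f _ = ∫⁻ _s in Set.Icc (t - δ / 2) (t + δ / 2), f (a + t • e + u) := by
                rw [setLIntegral_const, Real.volume_Icc, hddef, mul_comm]
                congr 2; ring
            _ ≤ ∫⁻ s in Set.Icc (t - δ / 2) (t + δ / 2),
                  (closedBall (a + s • e) (2 * δ)).indicator f (a + t • e + u) := by
                refine setLIntegral_mono' measurableSet_Icc fun s hs => ?_
                rw [Set.indicator_of_mem]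
                rw [mem_closedBall, dist_eq_norm,
                  show a + t • e + u - (a + s • e) = (t - s) • e + u by rw [sub_smul]; abel]
                refine (norm_add_le _ _).trans ?_
                rw [norm_smul, he, mul_one, Real.norm_eq_abs]
                have : |t - s| ≤ δ / 2 := abs_le.2 ⟨by linarith [hs.2], by linarith [hs.1]⟩
                linarith
            _ ≤ _ := lintegral_mono_set (Set.Icc_subset_Icc (by linarith) (by linarith))
      _ ≤ ∫⁻ y, ∫⁻ s in Set.Icc (-1 : ℝ) 1, (closedBall (a + s • e) (2 * δ)).indicator f y :=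
          setLIntegral_le_lintegral _ _
      _ = ∫⁻ s in Set.Icc (-1 : ℝ) 1, ∫⁻ y, (closedBall (a + s • e) (2 * δ)).indicator f y :=
          (lintegral_lintegral_swap hmeas.aemeasurable).symm
      _ ≤ ∫⁻ s in Set.Icc (-1 : ℝ) 1, ∫⁻ z : Fin n → ℝ in closedBall (a + s • e).ofLp (2 * δ),
            f (WithLp.toLp 2 z) := by
          refine lintegral_mono fun s => ?_
          rw [← (PiLp.volume_preserving_toLp (Fin n)).lintegral_comp
            (hf.indicator measurableSet_closedBall), ← lintegral_indicator measurableSet_closedBall]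
          refine lintegral_mono fun z => ?_
          by_cases hz : WithLp.toLp 2 z ∈ closedBall (a + s • e) (2 * δ)
          · rw [Set.indicator_of_mem hz, Set.indicator_of_mem]
            rw [mem_closedBall, dist_eq_norm] at hz ⊢
            refine (pi_norm_le_iff_of_nonneg (by positivity)).2 fun i => ?_
            exact le_trans (by simp) ((PiLp.norm_apply_le _ i).trans hz)
          · rw [Set.indicator_of_notMem hz]; exact zero_le
      _ = _ := by
          simp only [avg]
          rw [lintegral_const_mul' _ _ (ENNReal.inv_ne_top.2 (pow_ne_zero _ hd0)), ← mul_assoc,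
            ENNReal.mul_inv_cancel (pow_ne_zero _ hd0) (ENNReal.pow_ne_top hdt), one_mul]
  have hVt : V ≠ ⊤ := ENNReal.mul_ne_top (ENNReal.mul_ne_top ENNReal.ofReal_ne_top
    ENNReal.ofReal_ne_top) measure_ball_lt_top.ne
  rw [← ENNReal.mul_div_mul_left _ _ hd0 hdt]
  refine (ENNReal.div_le_div hupp hlow).trans_eq ?_
  rw [mul_comm V, ENNReal.mul_div_mul_left _ _ (pow_ne_zero _ hd0) (ENNReal.pow_ne_top hdt),
    div_eq_mul_inv, mul_comm]

end Vale.Agent.P127.Smooth
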