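import Mathlib

/-!
The averages over Kakeya tubes along a selection, and their integral over the sphere.
-/

open MeasureTheory Metric
open scoped ENNReal RealInnerProductSpace

namespace Vale.Agent.P127.Smooth

variable {n : ℕ}

/-- The tube `T_δ(a, e)`. -/
def tube (δ : ℝ) (a e : EuclideanSpace ℝ (Fin n)) : Set (EuclideanSpace ℝ (Fin n)) :=
  {x | ∃ t : ℝ, ∃ u, |t| ≤ 1 / 2 ∧ ⟪u, e⟫ = 0 ∧ ‖u‖ ≤ δ ∧ x = a + t • e + u}

/-- The integral over unit directions `e` of the `n`-th power of the average of `f` over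
`T_δ(a e, e)`. -/
noncomputable def selectionEnergy (δ : ℝ) (a : EuclideanSpace ℝ (Fin n) → EuclideanSpace ℝ (Fin n))
    (f : EuclideanSpace ℝ (Fin n) → ℝ≥0∞) : ℝ≥0∞ :=
  ∫⁻ e : sphere (0 : EuclideanSpace ℝ (Fin n)) 1,
    ((∫⁻ y in tube δ (a e.1) e.1, f y) / volume (tube δ (a e.1) e.1)) ^ (n : ℝ)
    ∂(volume : Measure (EuclideanSpace ℝ (Fin n))).toSphere

end Vale.Agent.P127.Smooth
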