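import Mathlib

/-!
The Jacobian of `z ↦ Q z + z i • update z i lam`, as a monic polynomial in `z i`, and a uniform
integrability bound for its negative powers.
-/

open MeasureTheory Finset
open scoped ENNReal

namespace Vale.Agent.P127.Smooth

variable {m : ℕ}

/-- Determinant of a matrix whose column `i` is `x` and which is shifted by `s` off column `i`. -/
theorem det_shift (i : Fin (m + 1)) (A : Matrix (Fin (m + 1)) (Fin (m + 1)) ℝ)
    (x : Fin (m + 1) → ℝ) (s lam : ℝ) (hx : x i = lam) (hlam : lam ≠ 0) :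
    (Matrix.of fun r j => if j = i then x r else A r j + if r = j then s else 0).det =
      lam * (Polynomial.eval s (-(Matrix.of fun r j : Fin m =>
        A (i.succAbove r) (i.succAbove j) - x (i.succAbove r) / lam * A i (i.succAbove j))).charpoly)
    := by
  let M : Matrix (Fin (m + 1)) (Fin (m + 1)) ℝ :=
    Matrix.of fun r j => if j = i then x r else A r j + if r = j then s else 0
  let c : Fin (m + 1) → ℝ := fun r => if r = i then 0 else -(x r / lam)
  let M' : Matrix (Fin (m + 1)) (Fin (m + 1)) ℝ := Matrix.of fun r j => M r j + c r * M i j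
  have h1 : M'.det = M.det := Matrix.det_eq_of_forall_row_eq_smul_add_const c i (by simp [c])
    (fun r j => rfl)
  have hcol : ∀ r, M' r i = if r = i then lam else 0 := by
    intro r
    by_cases h : r = i
    · subst h; simp [M', M, c, hx]
    · simp [M', M, c, h, hx]; field_simp; ring
  show M.det = _
  rw [← h1, Matrix.det_succ_column M' i, Finset.sum_eq_single i]
  · rw [hcol, if_pos rfl, Even.neg_one_pow ⟨i, rfl⟩, one_mul]
    congr 1
    rw [Matrix.eval_charpoly]
    congr 1
    ext r j
    have hr := Fin.succAbove_ne i r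
    have hj := Fin.succAbove_ne i j
    by_cases h : r = j
    · subst h
      simp [M', M, c, hr, Ne.symm hr]; ring
    · simp [M', M, c, hr, hj, Ne.symm hj, h, (Fin.succAbove_right_injective (p := i)).eq_iff]; ring
  · intro r _ hr; simp [hcol, hr]
  · simp

/-- A monic real polynomial of degree `d` dominates the `d`-th power of the distance to one of
`d` fixed real numbers. -/
theorem exists_centres (P : Polynomial ℝ) (hP : P.Monic) :
    ∃ c : Fin P.natDegree → ℝ, P.natDegree ≠ 0 → ∀ s, ∃ j,
      |s - c j| ^ P.natDegree ≤ |P.eval s| := by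
  classical
  let Q := P.map (algebraMap ℝ ℂ)
  have hQ : Q.Monic := hP.map _
  have hs : Q.Splits := IsAlgClosed.splits Q
  have hcard : Q.roots.toList.length = P.natDegree := by
    rw [Multiset.length_toList, ← hs.natDegree_eq_card_roots, Polynomial.natDegree_map]
  refine ⟨fun j => (Q.roots.toList.get (Fin.cast hcard.symm j)).re, fun hne s => ?_⟩
  have hev : (|P.eval s| : ℝ) = ∏ j : Fin P.natDegree,
      ‖(s : ℂ) - Q.roots.toList.get (Fin.cast hcard.symm j)‖ := by
    rw [← norm_prod]
    have h := congrArg (Polynomial.eval (s : ℂ)) (hs.eq_prod_roots_of_monic hQ)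
    rw [Polynomial.eval_multiset_prod, Multiset.map_map] at h
    have e : (Multiset.map (fun a => Polynomial.eval (s : ℂ) (Polynomial.X - Polynomial.C a)) Q.roots).prod
        = ∏ j : Fin P.natDegree, ((s : ℂ) - Q.roots.toList.get (Fin.cast hcard.symm j)) := by
      conv_lhs => rw [← Multiset.coe_toList Q.roots]
      rw [Multiset.map_coe, Multiset.prod_coe,
        ← Fintype.prod_equiv (finCongr hcard) (fun j => (s : ℂ) - Q.roots.toList.get j) _
          (fun j => by simp), ← List.prod_ofFn]
      congr 1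
      conv_lhs => rw [← List.ofFn_get Q.roots.toList, List.map_ofFn]
      simp [Function.comp_def]
    rw [← e]
    rw [show (s : ℂ) = algebraMap ℝ ℂ s from rfl, Polynomial.eval_map_apply] at h
    rw [show (s : ℂ) = algebraMap ℝ ℂ s from rfl]
    simp only [Function.comp_def] at h
    rw [← h]
    simp
  have : NeZero P.natDegree := ⟨hne⟩
  obtain ⟨j, -, hj⟩ := exists_min_image univ
    (fun j : Fin P.natDegree => |s - (Q.roots.toList.get (Fin.cast hcard.symm j)).re|) univ_nonempty
  refine ⟨j, ?_⟩
  rw [hev]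
  calc |s - (Q.roots.toList.get (Fin.cast hcard.symm j)).re| ^ P.natDegree
      = ∏ _k : Fin P.natDegree, |s - (Q.roots.toList.get (Fin.cast hcard.symm j)).re| := by simp
    _ ≤ _ := prod_le_prod (fun k _ => abs_nonneg _) fun k hk => (hj k hk).trans <| by
        simpa using Complex.abs_re_le_norm ((s : ℂ) - Q.roots.toList.get (Fin.cast hcard.symm k))

/-- The integral of `|s - c| ^ (-r)` over an interval of length 4, uniformly in `c`. -/
theorem lintegral_abs_rpow_le {r : ℝ} (h0 : 0 ≤ r) (h1 : r < 1) :
    ∃ C : ℝ≥0∞, C ≠ ⊤ ∧ ∀ c : ℝ,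
      ∫⁻ s in Set.Icc (-2 : ℝ) 2, ENNReal.ofReal |s - c| ^ (-r) ≤ C := by
  let K := ∫⁻ u in Set.Icc (-1 : ℝ) 1, ENNReal.ofReal |u| ^ (-r)
  refine ⟨4 + K, ?_, fun c => ?_⟩
  · refine ENNReal.add_ne_top.2 ⟨by simp, ?_⟩
    have hi : IntegrableOn (fun u : ℝ => |u| ^ (-r)) (Set.Icc (-1) 1) := by
      have h := intervalIntegral.intervalIntegrable_rpow' (a := 0) (b := 1) (r := -r) (by linarith)
      have h2 : IntervalIntegrable (fun u : ℝ => |u| ^ (-r)) volume 0 1 :=
        h.congr fun u hu => by
          rw [Set.uIoc_of_le zero_le_one] at hu; simp [abs_of_pos hu.1]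
      have h3 := (h2.comp_sub_left 0).symm
      simp only [zero_sub, abs_neg, neg_zero] at h3
      have h4 := h3.trans h2
      rwa [intervalIntegrable_iff_integrableOn_Icc_of_le (by norm_num)] at h4
    refine ne_top_of_le_ne_top hi.2.ne (lintegral_mono_ae ?_)
    have : ∀ᵐ u : ℝ ∂volume.restrict (Set.Icc (-1) 1), u ≠ 0 :=
      ae_restrict_of_ae (Measure.ae_ne _ 0)
    filter_upwards [this] with u hu
    rw [ENNReal.ofReal_rpow_of_pos (abs_pos.2 hu), Real.enorm_eq_ofReal (Real.rpow_nonneg (abs_nonneg u) _)]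
  · calc ∫⁻ s in Set.Icc (-2 : ℝ) 2, ENNReal.ofReal |s - c| ^ (-r)
        ≤ ∫⁻ s in Set.Icc (-2 : ℝ) 2, (1 + (Set.Icc (c - 1) (c + 1)).indicator
            (fun s => ENNReal.ofReal |s - c| ^ (-r)) s) := by
          refine lintegral_mono fun s => ?_
          by_cases h : s ∈ Set.Icc (c - 1) (c + 1)
          · rw [Set.indicator_of_mem h]; exact le_add_self
          · rw [Set.indicator_of_notMem h, add_zero, ENNReal.rpow_neg]
            refine ENNReal.inv_le_one.2 ((ENNReal.one_rpow r).symm.le.trans (ENNReal.rpow_le_rpow ?_ h0))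
            rw [Set.mem_Icc, not_and_or, not_le, not_le] at h
            rw [ENNReal.one_le_ofReal]
            rcases h with h | h
            · exact le_abs.2 (Or.inr (by linarith))
            · exact le_abs.2 (Or.inl (by linarith))
      _ ≤ 4 + ∫⁻ s in Set.Icc (c - 1) (c + 1), ENNReal.ofReal |s - c| ^ (-r) := by
          rw [lintegral_add_left measurable_const]
          refine add_le_add (by simp; norm_num) ?_
          exact (setLIntegral_le_lintegral _ _).trans (lintegral_indicator_le _ _)
      _ = 4 + K := by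
          congr 1
          show _ = ∫⁻ u in Set.Icc (-1 : ℝ) 1, ENNReal.ofReal |u| ^ (-r)
          rw [← lintegral_indicator measurableSet_Icc, ← lintegral_indicator measurableSet_Icc,
            ← lintegral_add_right_eq_self _ c]
          refine lintegral_congr fun u => ?_
          simp only [Set.indicator, Set.mem_Icc, add_sub_cancel_right]
          congr 1
          apply propext; constructor <;> intro h <;> constructor <;> linarith [h.1, h.2]

/-- Uniform bound for the integral of a negative power of a monic polynomial of degree `m`. -/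
theorem lintegral_poly_rpow_le {q : ℝ} (h0 : 0 ≤ q) (h1 : (m : ℝ) * q < 1) :
    ∃ C : ℝ≥0∞, C ≠ ⊤ ∧ ∀ P : Polynomial ℝ, P.Monic → P.natDegree = m →
      ∫⁻ s in Set.Icc (-2 : ℝ) 2, ENNReal.ofReal |P.eval s| ^ (-q) ≤ C := by
  rcases Nat.eq_zero_or_pos m with rfl | hm
  · refine ⟨4, by simp, fun P hP hd => ?_⟩
    have : P = 1 := Polynomial.eq_one_of_monic_natDegree_zero hP hd
    simp [this]; norm_num
  obtain ⟨C, hC, hCb⟩ := lintegral_abs_rpow_le (mul_nonneg (Nat.cast_nonneg m) h0) h1
  refine ⟨m * C, ENNReal.mul_ne_top (by simp) hC, fun P hP hd => ?_⟩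
  subst hd
  obtain ⟨c, hc⟩ := exists_centres P hP
  calc ∫⁻ s in Set.Icc (-2 : ℝ) 2, ENNReal.ofReal |P.eval s| ^ (-q)
      ≤ ∫⁻ s in Set.Icc (-2 : ℝ) 2,
          ∑ j, ENNReal.ofReal |s - c j| ^ (-((P.natDegree : ℝ) * q)) := by
        refine lintegral_mono fun s => ?_
        obtain ⟨j, hj⟩ := hc (by omega) s
        refine le_trans ?_ (single_le_sum (fun k _ => zero_le) (mem_univ j))
        rw [ENNReal.rpow_neg, ENNReal.rpow_neg, ENNReal.inv_le_inv, ENNReal.rpow_mul,
          ENNReal.rpow_natCast, ← ENNReal.ofReal_pow (abs_nonneg _)]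
        exact ENNReal.rpow_le_rpow (ENNReal.ofReal_le_ofReal hj) h0
    _ = ∑ j, ∫⁻ s in Set.Icc (-2 : ℝ) 2,
          ENNReal.ofReal |s - c j| ^ (-((P.natDegree : ℝ) * q)) :=
        lintegral_finsetSum _ fun j _ => by fun_prop
    _ ≤ ∑ _j : Fin P.natDegree, C := sum_le_sum fun j _ => hCb _
    _ = _ := by simp

end Vale.Agent.P127.Smooth
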