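import Vale.Agent.P127.Smooth.Roots

/-!
Taylor approximation, by a polynomial map in coordinates, of a function which is `C^k` off the
origin.
-/

open Finset
open scoped Nat

namespace Vale.Agent.P127.Smooth

variable {n : ℕ}

theorem multilinear_mem {j : ℕ}
    (L : ContinuousMultilinearMap ℝ (fun _ : Fin j => EuclideanSpace ℝ (Fin n))
      (EuclideanSpace ℝ (Fin n))) (c : EuclideanSpace ℝ (Fin n)) (r : Fin n) :
    (fun z : Fin n → ℝ => (L fun _ => WithLp.toLp 2 z - c).ofLp r) ∈ polySpace n j := by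
  classical
  have key : (fun z : Fin n → ℝ => (L fun _ => WithLp.toLp 2 z - c).ofLp r) =
      ∑ q : Fin j → Fin n, (L fun l => EuclideanSpace.single (q l) (1 : ℝ)).ofLp r •
        ∏ l, (fun z : Fin n → ℝ => z (q l) - c.ofLp (q l)) := by
    funext z
    have hv : WithLp.toLp 2 z - c = ∑ i, (z i - c.ofLp i) • EuclideanSpace.single i (1 : ℝ) := by
      ext i; simp [Pi.single_apply]
    rw [hv, L.map_sum, WithLp.ofLp_sum, Finset.sum_apply, Finset.sum_apply]
    refine sum_congr rfl fun q _ => ?_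
    rw [L.map_smul_univ]
    simp [mul_comm]
  rw [key]
  refine sum_mem fun q _ => Submodule.smul_mem _ _ ?_
  have h := prod_mem_poly univ (fun _ => 1) (fun l (z : Fin n → ℝ) => z (q l) - c.ofLp (q l))
    fun l _ => sub_mem (coord_mem _) (const_mem _)
  simpa using h

theorem line_deriv (A : EuclideanSpace ℝ (Fin n) → EuclideanSpace ℝ (Fin n)) {k : ℕ}
    (hA : ContDiffOn ℝ k A {x | x ≠ 0}) (c h : EuclideanSpace ℝ (Fin n)) {t : ℝ}
    (ht : c + t • h ≠ 0) {j : ℕ} (hj : j ≤ k) :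
    ContDiffAt ℝ k (fun t : ℝ => A (c + t • h)) t ∧
    iteratedDeriv j (fun t : ℝ => A (c + t • h)) t =
      iteratedFDeriv ℝ j A (c + t • h) fun _ => h := by
  let g : ℝ →L[ℝ] EuclideanSpace ℝ (Fin n) := ContinuousLinearMap.toSpanSingleton ℝ h
  let s : Set (EuclideanSpace ℝ (Fin n)) := {z | c + z ≠ 0}
  have hso : IsOpen s := isOpen_ne_fun (by fun_prop) continuous_const
  have hgo : IsOpen (g ⁻¹' s) := hso.preimage g.continuous
  have hgt : g t ∈ s := by simpa [g, s] using ht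
  have hB : ContDiffOn ℝ k (fun z => A (c + z)) s :=
    hA.comp (contDiff_const.add contDiff_id).contDiffOn fun z hz => hz
  have e : (fun t : ℝ => A (c + t • h)) = (fun z => A (c + z)) ∘ g := by funext u; simp [g]
  rw [e]
  refine ⟨(hB.contDiffAt (hso.mem_nhds hgt)).comp t g.contDiff.contDiffAt, ?_⟩
  rw [iteratedDeriv_eq_iteratedFDeriv, ← iteratedFDerivWithin_of_isOpen j hgo hgt,
    g.iteratedFDerivWithin_comp_right hB hso.uniqueDiffOn hgo.uniqueDiffOn hgt
      (by exact_mod_cast hj),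
    iteratedFDerivWithin_of_isOpen j hso hgt]
  have e2 : iteratedFDeriv ℝ j (fun z => A (c + z)) (g t) = iteratedFDeriv ℝ j A (c + g t) := by
    rw [← iteratedFDerivWithin_univ, iteratedFDerivWithin_comp_add_left, Set.vadd_set_univ,
      iteratedFDerivWithin_univ]
  rw [e2]
  simp [g]

/-- Taylor polynomial: degree at most `k`, error at most `M ‖x - c‖ ^ k` along segments avoiding
the origin on which the `k`-th derivative is at most `M`. -/
theorem exists_poly_approx (A : EuclideanSpace ℝ (Fin n) → EuclideanSpace ℝ (Fin n)) {k : ℕ}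
    (hk : 1 ≤ k) (hA : ContDiffOn ℝ k A {x | x ≠ 0}) (c : EuclideanSpace ℝ (Fin n)) :
    ∃ P : (Fin n → ℝ) → Fin n → ℝ, (∀ r, (fun z => P z r) ∈ polySpace n k) ∧
      ∀ (z : Fin n → ℝ) (M : ℝ),
        (∀ t ∈ Set.Icc (0 : ℝ) 1, c + t • (WithLp.toLp 2 z - c) ≠ 0 ∧
          ‖iteratedFDeriv ℝ k A (c + t • (WithLp.toLp 2 z - c))‖ ≤ M) →
        ∀ r, |(A (WithLp.toLp 2 z)).ofLp r - P z r| ≤ M * ‖WithLp.toLp 2 z - c‖ ^ k := by
  obtain ⟨l, rfl⟩ : ∃ l, k = l + 1 := ⟨k - 1, by omega⟩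
  refine ⟨fun z r => ∑ j ∈ range (l + 1),
    ((j ! : ℝ)⁻¹) * (iteratedFDeriv ℝ j A c fun _ => WithLp.toLp 2 z - c).ofLp r, fun r => ?_,
    fun z M hz r => ?_⟩
  · have e : (fun z : Fin n → ℝ => ∑ j ∈ range (l + 1),
        ((j ! : ℝ)⁻¹) * (iteratedFDeriv ℝ j A c fun _ => WithLp.toLp 2 z - c).ofLp r) =
        ∑ j ∈ range (l + 1), ((j ! : ℝ)⁻¹) •
          fun z : Fin n → ℝ => (iteratedFDeriv ℝ j A c fun _ => WithLp.toLp 2 z - c).ofLp r := by
      funext z; simp
    rw [e]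
    exact sum_mem fun j hj => Submodule.smul_mem _ _
      (polySpace_mono (by simp at hj; omega) (multilinear_mem _ c r))
  · set h := WithLp.toLp 2 z - c with hh
    let ψ : ℝ → EuclideanSpace ℝ (Fin n) := fun t => A (c + t • h)
    have hd : ∀ t ∈ Set.Icc (0 : ℝ) 1, ∀ j ≤ l + 1, ContDiffAt ℝ (l + 1 : ℕ) ψ t ∧
        iteratedDerivWithin j ψ (Set.Icc 0 1) t = iteratedFDeriv ℝ j A (c + t • h) fun _ => h := by
      intro t ht j hj
      obtain ⟨h1, h2⟩ := line_deriv A hA c h (hz t ht).1 hj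
      refine ⟨h1, ?_⟩
      rw [iteratedDerivWithin_eq_iteratedDeriv (uniqueDiffOn_Icc one_pos)
        (h1.of_le (by exact_mod_cast hj)) ht, h2]
    have hT := taylor_mean_remainder_bound (f := ψ) (a := 0) (b := 1) (x := 1) (n := l)
      (C := M * ‖h‖ ^ (l + 1)) zero_le_one
      (fun t ht => by simpa using ((hd t ht 0 (Nat.zero_le _)).1).contDiffWithinAt)
      ⟨zero_le_one, le_rfl⟩ (fun t ht => by
        rw [(hd t ht _ le_rfl).2]
        refine (ContinuousMultilinearMap.le_opNorm _ _).trans ?_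
        simp only [prod_const, card_univ, Fintype.card_fin]
        exact mul_le_mul_of_nonneg_right (hz t ht).2 (by positivity))
    have e : (taylorWithinEval ψ l (Set.Icc 0 1) 0 1).ofLp r =
        ∑ j ∈ range (l + 1), ((j ! : ℝ)⁻¹) * (iteratedFDeriv ℝ j A c fun _ => h).ofLp r := by
      rw [taylor_within_apply, WithLp.ofLp_sum, Finset.sum_apply]
      refine sum_congr rfl fun j hj => ?_
      rw [(hd 0 ⟨le_rfl, zero_le_one⟩ j (by simp at hj; omega)).2]
      simp
    have hM : 0 ≤ M := (norm_nonneg _).trans (hz 0 ⟨le_rfl, zero_le_one⟩).2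
    show |(A (WithLp.toLp 2 z)).ofLp r - ∑ j ∈ range (l + 1),
      ((j ! : ℝ)⁻¹) * (iteratedFDeriv ℝ j A c fun _ => h).ofLp r| ≤ _
    rw [← e, show A (WithLp.toLp 2 z) = ψ 1 by simp [ψ, h], ← PiLp.sub_apply, ← Real.norm_eq_abs]
    refine (PiLp.norm_apply_le _ r).trans (hT.trans ?_)
    rw [sub_zero, one_pow, mul_one]
    exact div_le_self (by positivity) (by exact_mod_cast Nat.factorial_pos l)

end Vale.Agent.P127.Smooth
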