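import Vale.Agent.P127.Smooth.Mult
import Vale.Agent.P127.Smooth.Taylor
import Vale.Agent.P127.Smooth.Avg

/-!
The Kakeya maximal estimate for selections with a bounded `k`-th derivative.
-/

open MeasureTheory Metric Function Finset
open scoped ENNReal

namespace Vale.Agent.P127.Smooth

variable {n m : ℕ}

theorem update_mem {L : ℕ} (i : Fin n) (lam : ℝ) {f : (Fin n → ℝ) → ℝ} (hf : f ∈ polySpace n L) :
    (fun z => f (update z i lam)) ∈ polySpace n L := by
  induction hf using Submodule.span_induction with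
  | mem a ha =>
    obtain ⟨α, rfl⟩ := ha
    have e : (fun z : Fin n → ℝ => mono (fun j => (α j : ℕ)) (update z i lam)) =
        lam ^ (α i : ℕ) • mono (update (fun j => (α j : ℕ)) i 0) := by
      funext z
      simp only [mono, Pi.smul_apply, smul_eq_mul]
      rw [← Finset.mul_prod_erase univ _ (mem_univ i),
        ← Finset.mul_prod_erase univ (fun j => z j ^ update (fun j => (α j : ℕ)) i 0 j) (mem_univ i)]
      simp only [update_self, pow_zero, one_mul]
      congr 1
      exact prod_congr rfl fun j hj => by simp [update_of_ne (ne_of_mem_erase hj)]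
    simp only [] at e ⊢
    rw [e]
    refine Submodule.smul_mem _ _ (mono_mem fun j => ?_)
    by_cases h : j = i
    · subst h; simp
    · simp [update_of_ne h]; exact Nat.le_of_lt_succ (α j).2
  | zero => exact zero_mem _
  | add x y _ _ hx hy => exact add_mem hx hy
  | smul c x _ hx => exact Submodule.smul_mem _ c hx

theorem cover_Icc (N : ℕ) (hN : 0 < N) {t : ℝ} (ht : t ∈ Set.Icc (-1 : ℝ) 1) :
    ∃ l : Fin N, |t - (-1 + (2 * (l : ℕ) + 1) / N)| ≤ 1 / N := by
  have hN0 : (0 : ℝ) < N := by exact_mod_cast hN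
  have hx0 : 0 ≤ (t + 1) * N / 2 := div_nonneg (mul_nonneg (by linarith [ht.1]) hN0.le) zero_le_two
  by_cases h : ⌊(t + 1) * (N : ℝ) / 2⌋₊ < N
  · refine ⟨⟨_, h⟩, ?_⟩
    have h1 := Nat.floor_le hx0
    have h2 := Nat.lt_floor_add_one ((t + 1) * (N : ℝ) / 2)
    rw [show t - (-1 + (2 * (⌊(t + 1) * (N : ℝ) / 2⌋₊ : ℝ) + 1) / N) =
      ((t + 1) * N - (2 * (⌊(t + 1) * (N : ℝ) / 2⌋₊ : ℝ) + 1)) / N by field_simp; ring, abs_div,
      abs_of_pos hN0]
    exact div_le_div_of_nonneg_right (abs_le.2 ⟨by linarith, by linarith⟩) hN0.le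
  · refine ⟨⟨N - 1, by omega⟩, ?_⟩
    rw [not_lt, Nat.le_floor_iff hx0] at h
    have ht1 : t = 1 := le_antisymm ht.2 (by nlinarith)
    subst ht1
    rw [show (1 : ℝ) - (-1 + (2 * ((N - 1 : ℕ) : ℝ) + 1) / N) = 1 / N by
      rw [Nat.cast_sub (by omega : 1 ≤ N)]; field_simp; push_cast; ring]
    rw [abs_of_pos (by positivity)]

theorem norm_toLp_le (z : Fin n → ℝ) {b : ℝ} (hb : 0 ≤ b) (h : ∀ r, |z r| ≤ b) :
    ‖WithLp.toLp 2 z‖ ≤ Real.sqrt n * b := by
  rw [EuclideanSpace.norm_eq]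
  refine (Real.sqrt_le_sqrt ((Finset.sum_le_sum fun r _ => show ‖z r‖ ^ 2 ≤ b ^ 2 by
    rw [Real.norm_eq_abs]; exact pow_le_pow_left₀ (abs_nonneg _) (h r) 2))).trans ?_
  simp [Real.sqrt_sq hb]

/-- The line integral of ball averages along `A x + s x`. -/
noncomputable def lineAvg (A : EuclideanSpace ℝ (Fin n) → EuclideanSpace ℝ (Fin n)) (δ : ℝ)
    (f : (Fin n → ℝ) → ℝ≥0∞) (z : Fin n → ℝ) : ℝ≥0∞ :=
  ∫⁻ s in Set.Icc (-2 : ℝ) 2, avg 2 δ f ((A (WithLp.toLp 2 z)).ofLp + s • z)

theorem measurable_lineAvg {A : EuclideanSpace ℝ (Fin n) → EuclideanSpace ℝ (Fin n)}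
    (hA : Measurable A) (δ : ℝ) {f : (Fin n → ℝ) → ℝ≥0∞} (hf : Measurable f) :
    Measurable (lineAvg A δ f) := by
  refine Measurable.lintegral_prod_right'
    (f := fun q : (Fin n → ℝ) × ℝ => avg 2 δ f ((A (WithLp.toLp 2 q.1)).ofLp + q.2 • q.1)) ?_
  refine (measurable_avg 2 δ hf).comp ?_
  have h1 : Measurable fun q : (Fin n → ℝ) × ℝ => (A (WithLp.toLp 2 q.1)).ofLp :=
    (PiLp.continuous_ofLp 2 _).measurable.comp
      (hA.comp ((PiLp.continuous_toLp 2 _).measurable.comp measurable_fst))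
  exact h1.add (measurable_snd.smul measurable_fst)

theorem slab_bound (m k : ℕ) (hm : 1 ≤ m) (hk : 1 ≤ k) {ε : ℝ} (hε : 0 < ε) :
    ∃ C : ℝ≥0∞, C ≠ ⊤ ∧ ∀ (A : EuclideanSpace ℝ (Fin (m + 1)) → EuclideanSpace ℝ (Fin (m + 1)))
      (M δ : ℝ), 1 ≤ M → 0 < δ → δ < 1 → ContDiffOn ℝ k A {x | x ≠ 0} →
      (∀ x, 1 / (2 * Real.sqrt (m + 1)) ≤ ‖x‖ → ‖x‖ ≤ Real.sqrt (m + 1) →
        ‖iteratedFDeriv ℝ k A x‖ ≤ M) →
      ∀ f : (Fin (m + 1) → ℝ) → ℝ≥0∞, Measurable f → ∀ (i : Fin (m + 1)) (lam : ℝ),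
        1 / (2 * Real.sqrt (m + 1)) ≤ |lam| → |lam| ≤ 1 →
        ∫⁻ w : Fin m → ℝ in closedBall 0 1, lineAvg A δ f (i.insertNth lam w) ^ ((m : ℝ) + 1) ≤
          C * ENNReal.ofReal (M ^ ((m : ℝ) / k) * δ ^ (-((m : ℝ) / k + ε))) *
            ∫⁻ y, f y ^ ((m : ℝ) + 1) := by
  set ν : ℝ := (m : ℝ) + 1 with hνdef
  set p : ℝ := ν + ε with hpdef
  have hν : 0 < ν := by positivity
  have hp : ν < p := by linarith
  have hp0 : 0 < p := hν.trans hp
  have hcast : ((m + 1 : ℕ) : ℝ) = ν := by simp [ν]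
  obtain ⟨C₁, hC₁, hC₁b⟩ := slice_bound m k (p := p) hp
  obtain ⟨C₂, hC₂, hC₂b⟩ := lintegral_avg_rpow_le (n := m + 1) (R := 3) (p := p) (by norm_num)
    (by omega) (by rw [hcast]; exact hp)
  set c₁ : ℝ := 1 / (2 * Real.sqrt ν) with hc₁def
  have hsν : 1 ≤ Real.sqrt ν := Real.one_le_sqrt.2 (by linarith [(Nat.cast_nonneg m : (0:ℝ) ≤ m)])
  have hc₁ : 0 < c₁ := by positivity
  set D : ℝ≥0∞ := (C₁ * ENNReal.ofReal c₁⁻¹ * C₂) ^ (ν / p) * (2 : ℝ≥0∞) ^ m with hDdef
  refine ⟨ENNReal.ofReal ((2 * Real.sqrt ν) ^ m) * D, ENNReal.mul_ne_top ENNReal.ofReal_ne_top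
    (ENNReal.mul_ne_top (ENNReal.rpow_ne_top_of_nonneg (by positivity)
      (ENNReal.mul_ne_top (ENNReal.mul_ne_top hC₁ ENNReal.ofReal_ne_top) hC₂))
      (ENNReal.pow_ne_top (by simp))), fun A M δ hM hδ hδ1 hA hAM f hf i lam hlam1 hlam2 => ?_⟩
  have hlam : lam ≠ 0 := by
    intro h; rw [h, abs_zero] at hlam1; linarith
  set σ : ℝ := (δ / M) ^ ((1 : ℝ) / k) with hσdef
  have hσ : 0 < σ := Real.rpow_pos_of_pos (by positivity) _
  have hσ1 : σ ≤ 1 := Real.rpow_le_one (by positivity) (by rw [div_le_one (by linarith)]; linarith)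
    (by positivity)
  set N : ℕ := ⌈Real.sqrt ν / σ⌉₊ with hNdef
  have hq0 : 1 ≤ Real.sqrt ν / σ := by rw [le_div_iff₀ hσ]; linarith
  have hN : 0 < N := Nat.ceil_pos.2 (by linarith)
  have hN0 : (0 : ℝ) < N := by exact_mod_cast hN
  have hNlo : Real.sqrt ν / σ ≤ N := Nat.le_ceil _
  have hNhi : (N : ℝ) ≤ 2 * Real.sqrt ν / σ := by
    have := Nat.ceil_lt_add_one (show (0 : ℝ) ≤ Real.sqrt ν / σ by linarith)
    rw [← hNdef] at this
    rw [mul_div_assoc]; linarith
  have hrad : Real.sqrt ν * (1 / N) ≤ σ := by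
    rw [div_le_iff₀ hσ] at hNlo
    rw [mul_one_div, div_le_iff₀ hN0]; linarith
  set F : ℝ≥0∞ := ∫⁻ y, f y ^ ν with hFdef
  set d := ENNReal.ofReal δ with hddef
  let ctr : Fin N → ℝ := fun l => -1 + (2 * (l : ℕ) + 1) / N
  have hctr : ∀ l, |ctr l| ≤ 1 := by
    intro l
    have h1 : ((l : ℕ) : ℝ) + 1 ≤ N := by exact_mod_cast l.2
    have h2 : (2 * ((l : ℕ) : ℝ) + 1) / N ≤ 2 := by rw [div_le_iff₀ hN0]; linarith
    have h3 : 0 ≤ (2 * ((l : ℕ) : ℝ) + 1) / N := by positivity
    rw [abs_le]; simp only [ctr]; constructor <;> linarith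
  let cell : (Fin m → Fin N) → Set (Fin m → ℝ) := fun q =>
    closedBall (fun j => ctr (q j)) (1 / N) ∩ closedBall 0 1
  have hcov : closedBall (0 : Fin m → ℝ) 1 ⊆ ⋃ q, cell q := by
    intro w hw
    have hw' : ∀ j, w j ∈ Set.Icc (-1 : ℝ) 1 := fun j => by
      have := (norm_le_pi_norm w j).trans (mem_closedBall_zero_iff.1 hw)
      exact abs_le.1 this
    choose q hq using fun j => cover_Icc N hN (hw' j)
    refine Set.mem_iUnion.2 ⟨q, ?_, hw⟩
    rw [mem_closedBall, dist_pi_le_iff (by positivity)]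
    exact fun j => hq j
  have hcell : ∀ q, ∫⁻ w in cell q, lineAvg A δ f (i.insertNth lam w) ^ ν ≤
      D * d ^ (-ε) * F := by
    intro q
    set c : EuclideanSpace ℝ (Fin (m + 1)) :=
      WithLp.toLp 2 (i.insertNth lam fun j => ctr (q j)) with hcdef
    obtain ⟨P, hP, hPerr⟩ := exists_poly_approx A hk hA c
    let Q : (Fin (m + 1) → ℝ) → Fin (m + 1) → ℝ := fun z => P (update z i lam)
    have hQ : ∀ r, (fun z => Q z r) ∈ polySpace (m + 1) k := fun r => update_mem i lam (hP r)
    have hind : ∀ z t, Q (update z i t) = Q z := fun z t => by simp [Q]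
    have hpt : ∀ w ∈ cell q, lineAvg A δ f (i.insertNth lam w) ≤
        ∫⁻ s in Set.Icc (-2 : ℝ) 2, avg 3 δ f (lineMap i lam Q (i.insertNth s w)) := by
      intro w hw
      refine lintegral_mono fun s => avg_mono_ball f ?_
      have hz : update (i.insertNth s w) i lam = i.insertNth (α := fun _ => ℝ) lam w := by
        funext r
        refine Fin.succAboveCases i ?_ (fun j => ?_) r <;> simp
      have hline : lineMap i lam Q (i.insertNth s w) =
          P (i.insertNth lam w) + s • i.insertNth (α := fun _ => ℝ) lam w := by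
        funext r
        simp only [lineMap, Q, hz, Pi.add_apply, Pi.smul_apply, smul_eq_mul, Fin.insertNth_apply_same]
        congr 2
        refine Fin.succAboveCases i ?_ (fun j => ?_) r <;> simp
      rw [hline, dist_add_right]
      have hdiff : ‖WithLp.toLp 2 (i.insertNth lam w) - c‖ ≤ σ := by
        rw [hcdef, ← WithLp.toLp_sub]
        refine (norm_toLp_le _ (b := 1 / N) (by positivity) fun r => ?_).trans (by rw [hcast]; exact hrad)
        refine Fin.succAboveCases i ?_ (fun j => ?_) r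
        · simp
        · have := (dist_pi_le_iff (by positivity)).1 (mem_closedBall.1 hw.1) j
          rw [Real.dist_eq] at this
          simpa using this
      have hseg : ∀ t ∈ Set.Icc (0 : ℝ) 1,
          c + t • (WithLp.toLp 2 (i.insertNth lam w) - c) ≠ 0 ∧
          ‖iteratedFDeriv ℝ k A (c + t • (WithLp.toLp 2 (i.insertNth lam w) - c))‖ ≤ M := by
        intro t ht
        set x := c + t • (WithLp.toLp 2 (i.insertNth lam w) - c) with hxdef
        have hxi : x.ofLp i = lam := by simp [x, c]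
        have hlo : c₁ ≤ ‖x‖ := by
          refine hlam1.trans ?_
          rw [← hxi, ← Real.norm_eq_abs]; exact PiLp.norm_apply_le _ i
        have hhi : ‖x‖ ≤ Real.sqrt ν := by
          rw [← WithLp.toLp_ofLp (p := 2) x]
          refine (norm_toLp_le _ (b := 1) zero_le_one fun r => ?_).trans (by rw [hcast, mul_one])
          refine Fin.succAboveCases i ?_ (fun j => ?_) r
          · rw [hxi]; exact hlam2
          · have h1 : |w j| ≤ 1 := (norm_le_pi_norm w j).trans (mem_closedBall_zero_iff.1 hw.2)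
            have h2 := hctr (q j)
            rw [abs_le] at h1 h2 ⊢
            simp only [x, c, WithLp.ofLp_add, WithLp.ofLp_smul, WithLp.ofLp_sub, Pi.add_apply,
              Pi.smul_apply, Pi.sub_apply, smul_eq_mul, Fin.insertNth_apply_succAbove]
            constructor <;> nlinarith [ht.1, ht.2]
        exact ⟨fun h0 => by rw [h0, norm_zero] at hlo; linarith, hAM x hlo hhi⟩
      have herr : ∀ r, |(A (WithLp.toLp 2 (i.insertNth lam w))).ofLp r - P (i.insertNth lam w) r|
          ≤ δ := by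
        intro r
        refine (hPerr _ M hseg r).trans ?_
        calc M * ‖WithLp.toLp 2 (i.insertNth lam w) - c‖ ^ k ≤ M * σ ^ k :=
              mul_le_mul_of_nonneg_left (pow_le_pow_left₀ (norm_nonneg _) hdiff k) (by linarith)
          _ = δ := by
              rw [hσdef, ← Real.rpow_natCast, ← Real.rpow_mul (by positivity),
                one_div_mul_cancel (by exact_mod_cast (by omega : k ≠ 0)), Real.rpow_one]
              field_simp
      have : dist (A (WithLp.toLp 2 (i.insertNth lam w))).ofLp (P (i.insertNth lam w)) ≤ δ :=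
        (dist_pi_le_iff hδ.le).2 fun r => by rw [Real.dist_eq]; exact herr r
      linarith
    have hsb : ∫⁻ w in cell q, lineAvg A δ f (i.insertNth lam w) ^ p ≤
        C₁ * ENNReal.ofReal c₁⁻¹ * (C₂ * d ^ (-(p - ν)) * F ^ (p / ν)) := by
      refine (setLIntegral_mono' (measurableSet_closedBall.inter measurableSet_closedBall)
        fun w hw => ENNReal.rpow_le_rpow (hpt w hw) hp0.le).trans ?_
      refine (setLIntegral_le_lintegral _ _).trans
        ((hC₁b i lam hlam Q hQ hind _ (measurable_avg 3 δ hf)).trans (mul_le_mul' ?_ ?_))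
      · refine mul_le_mul_right ?_ _
        rw [← ENNReal.ofReal_inv_of_pos (abs_pos.2 hlam)]
        exact ENNReal.ofReal_le_ofReal (inv_anti₀ hc₁ hlam1)
      · have := hC₂b δ hδ f hf
        rwa [hcast] at this
    have hvol : volume (cell q) ≤ 2 ^ m := by
      refine (measure_mono Set.inter_subset_left).trans ?_
      rw [Real.volume_pi_closedBall _ (by positivity), Fintype.card_fin,
        show (2 : ℝ≥0∞) ^ m = ENNReal.ofReal ((2 : ℝ) ^ m) by simp [ENNReal.ofReal_pow]]
      refine ENNReal.ofReal_le_ofReal (pow_le_pow_left₀ (by positivity) ?_ _)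
      have : (1 : ℝ) ≤ N := by exact_mod_cast hN
      rw [mul_one_div, div_le_iff₀ hN0]; linarith
    have hc := Real.HolderConjugate.conjExponent (show 1 < p / ν by rw [one_lt_div hν]; exact hp)
    have hGm : Measurable fun w : Fin m → ℝ => lineAvg A δ f (i.insertNth lam w) :=
      (measurable_lineAvg (measurable_of_continuousOn_compl_singleton 0 hA.continuousOn) δ hf).comp
        (Continuous.finInsertNth (A := fun _ => ℝ) i continuous_const continuous_id).measurable
    have hol := ENNReal.lintegral_mul_le_Lp_mul_Lq (volume.restrict (cell q)) hc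
      (f := fun w => lineAvg A δ f (i.insertNth lam w) ^ ν) (g := fun _ => 1)
      (hGm.pow_const _).aemeasurable measurable_const.aemeasurable
    simp only [Pi.mul_apply, mul_one, ENNReal.one_rpow, lintegral_const, one_mul,
      Measure.restrict_apply_univ, ← ENNReal.rpow_mul, mul_div_cancel₀ _ hν.ne', one_div_div] at hol
    refine hol.trans ?_
    calc (∫⁻ w in cell q, lineAvg A δ f (i.insertNth lam w) ^ p) ^ (ν / p) *
          volume (cell q) ^ (1 / Real.conjExponent (p / ν))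
        ≤ (C₁ * ENNReal.ofReal c₁⁻¹ * C₂ * (d ^ (-(p - ν)) * F ^ (p / ν))) ^ (ν / p) *
            (2 : ℝ≥0∞) ^ m := by
          refine mul_le_mul' (ENNReal.rpow_le_rpow (hsb.trans_eq (by ring)) (by positivity)) ?_
          refine (ENNReal.rpow_le_rpow hvol (one_div_nonneg.2 hc.symm.nonneg)).trans ?_
          refine (ENNReal.rpow_le_rpow_of_exponent_le (one_le_pow₀ one_le_two) ?_).trans_eq
            (ENNReal.rpow_one _)
          rw [div_le_one hc.symm.pos]; exact hc.symm.lt.le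
      _ = D * d ^ (-(p - ν) * (ν / p)) * F := by
          rw [ENNReal.mul_rpow_of_nonneg (C₁ * ENNReal.ofReal c₁⁻¹ * C₂) _ (by positivity),
            ENNReal.mul_rpow_of_nonneg (d ^ (-(p - ν))) _ (by positivity), ← ENNReal.rpow_mul,
            ← ENNReal.rpow_mul,
            show p / ν * (ν / p) = 1 by field_simp, ENNReal.rpow_one, hDdef]
          ring
      _ ≤ D * d ^ (-ε) * F := by
          refine mul_le_mul_left (mul_le_mul_right ?_ _) _
          refine ENNReal.rpow_le_rpow_of_exponent_ge ?_ ?_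
          · rw [hddef, ENNReal.ofReal_le_one]; exact hδ1.le
          · rw [hpdef, add_sub_cancel_left, neg_mul, neg_le_neg_iff, mul_div_assoc',
              div_le_iff₀ (by linarith)]
            nlinarith
  calc ∫⁻ w : Fin m → ℝ in closedBall 0 1, lineAvg A δ f (i.insertNth lam w) ^ ν
      ≤ ∑' q, ∫⁻ w in cell q, lineAvg A δ f (i.insertNth lam w) ^ ν :=
        (lintegral_mono_set hcov).trans (lintegral_iUnion_le _ _)
    _ = ∑ q, ∫⁻ w in cell q, lineAvg A δ f (i.insertNth lam w) ^ ν := tsum_fintype _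
    _ ≤ ∑ _q : Fin m → Fin N, D * d ^ (-ε) * F := sum_le_sum fun q _ => hcell q
    _ = ((N : ℝ≥0∞) ^ m * d ^ (-ε)) * (D * F) := by simp; ring
    _ ≤ (ENNReal.ofReal ((2 * Real.sqrt ν) ^ m) *
          ENNReal.ofReal (M ^ ((m : ℝ) / k) * δ ^ (-((m : ℝ) / k + ε)))) * (D * F) := by
        refine mul_le_mul_left ?_ _
        rw [← ENNReal.ofReal_mul (by positivity), ← ENNReal.ofReal_natCast,
          ← ENNReal.ofReal_pow hN0.le, hddef, ENNReal.ofReal_rpow_of_pos hδ,
          ← ENNReal.ofReal_mul (by positivity)]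
        refine ENNReal.ofReal_le_ofReal ?_
        have e : (σ⁻¹) ^ m = M ^ ((m : ℝ) / k) * δ ^ (-((m : ℝ) / k)) := by
          rw [hσdef, ← Real.inv_rpow (by positivity), inv_div, ← Real.rpow_natCast,
            ← Real.rpow_mul (by positivity), one_div_mul_eq_div,
            Real.div_rpow (by linarith) hδ.le, Real.rpow_neg hδ.le, div_eq_mul_inv]
        calc (N : ℝ) ^ m * δ ^ (-ε) ≤ (2 * Real.sqrt ν / σ) ^ m * δ ^ (-ε) :=
              mul_le_mul_of_nonneg_right (pow_le_pow_left₀ hN0.le hNhi m) (by positivity)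
          _ = _ := by
              rw [div_eq_mul_inv, mul_pow, e, neg_add, Real.rpow_add hδ]; ring
    _ = _ := by ring

theorem line_rescale {c : ℝ} (h1 : 1 / 2 ≤ c) (h2 : c ≤ 1) (g : ℝ → ℝ≥0∞) (hg : Measurable g) :
    ∫⁻ s in Set.Icc (-1 : ℝ) 1, g (c⁻¹ * s) ≤ ∫⁻ s in Set.Icc (-2 : ℝ) 2, g s := by
  have hc : 0 < c := by linarith
  calc ∫⁻ s in Set.Icc (-1 : ℝ) 1, g (c⁻¹ * s)
      ≤ ∫⁻ s, (Set.Icc (-2 : ℝ) 2).indicator g (c⁻¹ * s) := by
        rw [← lintegral_indicator measurableSet_Icc]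
        refine lintegral_mono fun s => ?_
        by_cases hs : s ∈ Set.Icc (-1 : ℝ) 1
        · have hu : c⁻¹ * s ∈ Set.Icc (-2 : ℝ) 2 := by
            rw [inv_mul_eq_div, Set.mem_Icc, le_div_iff₀ hc, div_le_iff₀ hc]
            constructor <;> linarith [hs.1, hs.2]
          rw [Set.indicator_of_mem hs, Set.indicator_of_mem hu]
        · rw [Set.indicator_of_notMem hs]; exact zero_le
    _ = ENNReal.ofReal c * ∫⁻ u, (Set.Icc (-2 : ℝ) 2).indicator g u := by
        rw [← lintegral_map (hg.indicator measurableSet_Icc) (measurable_const_mul _),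
          Real.map_volume_mul_left (inv_ne_zero hc.ne'), inv_inv, abs_of_pos hc,
          lintegral_smul_measure, smul_eq_mul]
    _ ≤ _ := by
        rw [lintegral_indicator measurableSet_Icc]
        exact mul_le_of_le_one_left zero_le (ENNReal.ofReal_le_one.2 h2)

/-- Integration over the unit sphere is dominated by integration over the annulus. -/
theorem sphere_le_annulus (n : ℕ) (hn : 1 ≤ n) : ∃ C : ℝ≥0∞, C ≠ ⊤ ∧
    ∀ h : EuclideanSpace ℝ (Fin n) → ℝ≥0∞, Measurable h →
      ∫⁻ e, h (e : EuclideanSpace ℝ (Fin n))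
          ∂(volume : Measure (EuclideanSpace ℝ (Fin n))).toSphere ≤
        C * ∫⁻ z : Fin n → ℝ, ({z | 1 / 2 < ‖WithLp.toLp 2 z‖ ∧ ‖WithLp.toLp 2 z‖ < 1}.indicator
          (fun z => h (‖WithLp.toLp 2 z‖⁻¹ • WithLp.toLp 2 z))) z := by
  have : Nonempty (Fin n) := ⟨⟨0, hn⟩⟩
  let ρ := Measure.volumeIoiPow (Module.finrank ℝ (EuclideanSpace ℝ (Fin n)) - 1)
  let S : Set (Set.Ioi (0 : ℝ)) := Set.Ioo ⟨1 / 2, by norm_num⟩ ⟨1, by norm_num⟩
  have hS : ρ S ≠ 0 := by
    intro h0
    have hlt : ρ (Set.Iio ⟨1, Set.mem_Ioi.2 one_pos⟩) ≤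
        ρ (Set.Iio ⟨3 / 4, Set.mem_Ioi.2 (by norm_num)⟩) + ρ S := by
      refine (measure_mono (fun x hx => ?_)).trans (measure_union_le _ _)
      by_cases h : (x : ℝ) < 3 / 4
      · exact Or.inl h
      · refine Or.inr ⟨?_, hx⟩
        show (1 / 2 : ℝ) < x; linarith
    rw [h0, add_zero, Measure.volumeIoiPow_apply_Iio, Measure.volumeIoiPow_apply_Iio,
      ENNReal.ofReal_le_ofReal_iff (by positivity)] at hlt
    have : (3 / 4 : ℝ) ^ (Module.finrank ℝ (EuclideanSpace ℝ (Fin n)) - 1 + 1) < 1 :=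
      pow_lt_one₀ (by norm_num) (by norm_num) (by omega)
    simp only [one_pow] at hlt
    rw [div_le_div_iff_of_pos_right (by positivity)] at hlt
    linarith
  have hSt : ρ S ≠ ⊤ := ne_top_of_le_ne_top
    (by rw [Measure.volumeIoiPow_apply_Iio]; exact ENNReal.ofReal_ne_top)
    (measure_mono (Set.Ioo_subset_Iio_self))
  refine ⟨(ρ S)⁻¹, ENNReal.inv_ne_top.2 hS, fun h hh => ?_⟩
  let B : Set (EuclideanSpace ℝ (Fin n)) := {x | 1 / 2 < ‖x‖ ∧ ‖x‖ < 1}
  have hB : MeasurableSet B :=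
    (measurableSet_lt measurable_const measurable_norm).inter
      (measurableSet_lt measurable_norm measurable_const)
  let H : EuclideanSpace ℝ (Fin n) → ℝ≥0∞ := B.indicator fun x => h (‖x‖⁻¹ • x)
  have hH : Measurable H := (hh.comp (by fun_prop)).indicator hB
  have key : (∫⁻ e, h (e : EuclideanSpace ℝ (Fin n))
      ∂(volume : Measure (EuclideanSpace ℝ (Fin n))).toSphere) * ρ S ≤ ∫⁻ x, H x := by
    rw [← lintegral_indicator_one (measurableSet_Ioo : MeasurableSet S),
      ← lintegral_prod_mul (μ := (volume : Measure (EuclideanSpace ℝ (Fin n))).toSphere) (ν := ρ)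
        (f := fun e : sphere (0 : EuclideanSpace ℝ (Fin n)) 1 => h e.1)
        (hh.comp measurable_subtype_coe).aemeasurable
        (measurable_one.indicator measurableSet_Ioo).aemeasurable,
      ← ((volume : Measure (EuclideanSpace ℝ (Fin n))).measurePreserving_homeomorphUnitSphereProd).lintegral_comp
        (f := fun z : sphere (0 : EuclideanSpace ℝ (Fin n)) 1 × Set.Ioi (0 : ℝ) =>
          h z.1 * S.indicator 1 z.2)
        (((hh.comp measurable_subtype_coe).comp measurable_fst).mul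
          ((measurable_one.indicator measurableSet_Ioo).comp measurable_snd))]
    refine (le_of_eq (lintegral_congr fun x => ?_)).trans
      ((lintegral_subtype_comap (measurableSet_singleton _).compl H).trans_le
        (setLIntegral_le_lintegral _ _))
    by_cases hx : (x : EuclideanSpace ℝ (Fin n)) ∈ B
    · have hs : (homeomorphUnitSphereProd (EuclideanSpace ℝ (Fin n)) x).2 ∈ S := by
        constructor
        · show (1 / 2 : ℝ) < _; simpa using hx.1
        · show _ < (1 : ℝ); simpa using hx.2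
      simp [H, Set.indicator_of_mem hx, Set.indicator_of_mem hs]
    · have hs : (homeomorphUnitSphereProd (EuclideanSpace ℝ (Fin n)) x).2 ∉ S := by
        rintro ⟨h1, h2⟩
        apply hx
        have h1' : (1 / 2 : ℝ) < _ := h1
        have h2' : _ < (1 : ℝ) := h2
        exact ⟨by simpa using h1', by simpa using h2'⟩
      simp [H, Set.indicator_of_notMem hx, Set.indicator_of_notMem hs]
  have e : ∫⁻ x, H x = ∫⁻ z : Fin n → ℝ, H (WithLp.toLp 2 z) :=
    ((PiLp.volume_preserving_toLp (Fin n)).lintegral_comp hH).symm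
  rw [← ENNReal.le_div_iff_mul_le (Or.inl hS) (Or.inl hSt), ENNReal.div_eq_inv_mul] at key
  refine key.trans_eq ?_
  rw [e]
  rfl

/-- The quantitative estimate. -/
theorem maximal_bound (m k : ℕ) (hm : 1 ≤ m) (hk : 1 ≤ k) {ε : ℝ} (hε : 0 < ε) :
    ∃ C : ℝ≥0∞, C ≠ ⊤ ∧ ∀ (a : EuclideanSpace ℝ (Fin (m + 1)) → EuclideanSpace ℝ (Fin (m + 1)))
      (M δ : ℝ), 1 ≤ M → 0 < δ → δ < 1 →
      ContDiffOn ℝ k (fun x => a (‖x‖⁻¹ • x)) {x | x ≠ 0} →
      (∀ x, 1 / (2 * Real.sqrt (m + 1)) ≤ ‖x‖ → ‖x‖ ≤ Real.sqrt (m + 1) →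
        ‖iteratedFDeriv ℝ k (fun x => a (‖x‖⁻¹ • x)) x‖ ≤ M) →
      ∀ f : EuclideanSpace ℝ (Fin (m + 1)) → ℝ≥0∞, Measurable f →
        ∫⁻ e, ((∫⁻ y in tube δ (a e.1) e.1, f y) / volume (tube δ (a e.1) e.1)) ^ ((m : ℝ) + 1)
            ∂(volume : Measure (EuclideanSpace ℝ (Fin (m + 1)))).toSphere ≤
          C * ENNReal.ofReal (M ^ ((m : ℝ) / k) * δ ^ (-((m : ℝ) / k + ε))) *
            ∫⁻ y, f y ^ ((m : ℝ) + 1) := by
  set ν : ℝ := (m : ℝ) + 1 with hνdef
  have hν : 0 ≤ ν := by positivity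
  obtain ⟨C₁, hC₁, hC₁b⟩ := slab_bound m k hm hk hε
  obtain ⟨C₂, hC₂, hC₂b⟩ := sphere_le_annulus (m + 1) (by omega)
  obtain ⟨C₃, hC₃, hC₃b⟩ := tube_avg_le (m + 1)
  refine ⟨C₃ ^ ν * (C₂ * ((m + 1 : ℕ) * (2 * C₁))), ENNReal.mul_ne_top
    (ENNReal.rpow_ne_top_of_nonneg hν hC₃) (ENNReal.mul_ne_top hC₂ (ENNReal.mul_ne_top
      (ENNReal.natCast_ne_top _) (ENNReal.mul_ne_top ENNReal.ofNat_ne_top hC₁))),
    fun a M δ hM hδ hδ1 hA hAM f hf => ?_⟩
  set A : EuclideanSpace ℝ (Fin (m + 1)) → EuclideanSpace ℝ (Fin (m + 1)) :=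
    fun x => a (‖x‖⁻¹ • x) with hAdef
  have hAm : Measurable A := measurable_of_continuousOn_compl_singleton 0 hA.continuousOn
  set f' : (Fin (m + 1) → ℝ) → ℝ≥0∞ := fun z => f (WithLp.toLp 2 z) with hf'def
  have hf' : Measurable f' := hf.comp (PiLp.continuous_toLp 2 _).measurable
  have hF : ∫⁻ z, f' z ^ ν = ∫⁻ y, f y ^ ν :=
    (PiLp.volume_preserving_toLp (Fin (m + 1))).lintegral_comp (hf.pow_const ν)
  set H : EuclideanSpace ℝ (Fin (m + 1)) → ℝ≥0∞ := fun x =>
    (∫⁻ s in Set.Icc (-1 : ℝ) 1, avg 2 δ f' (A x + s • x).ofLp) ^ ν with hHdef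
  have hHm : Measurable H := by
    refine (Measurable.lintegral_prod_right' (f := fun q : EuclideanSpace ℝ (Fin (m + 1)) × ℝ =>
      avg 2 δ f' (A q.1 + q.2 • q.1).ofLp) ?_).pow_const _
    exact (measurable_avg 2 δ hf').comp ((PiLp.continuous_ofLp 2 _).measurable.comp
      ((hAm.comp measurable_fst).add (measurable_snd.smul measurable_fst)))
  let G : (Fin (m + 1) → ℝ) → ℝ≥0∞ := fun z => lineAvg A δ f' z ^ ν
  have hGm : Measurable G := (measurable_lineAvg hAm δ hf').pow_const _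
  let R : Fin (m + 1) → Set (Fin (m + 1) → ℝ) := fun i =>
    closedBall 0 1 ∩ {z | 1 / (2 * Real.sqrt ν) ≤ |z i|}
  have hRm : ∀ i, MeasurableSet (R i) := fun i => measurableSet_closedBall.inter
    (measurableSet_le measurable_const (measurable_pi_apply i).abs)
  set B := ENNReal.ofReal (M ^ ((m : ℝ) / k) * δ ^ (-((m : ℝ) / k + ε))) * ∫⁻ y, f y ^ ν with hBdef
  have hsector : ∀ i, ∫⁻ z, (R i).indicator G z ≤ 2 * C₁ * B := by
    intro i
    rw [lintegral_insertNth i _ (hGm.indicator (hRm i)), lintegral_lintegral_swap]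
    · calc ∫⁻ lam : ℝ, ∫⁻ w, (R i).indicator G (i.insertNth lam w)
          ≤ ∫⁻ lam : ℝ, (Set.Icc (-1 : ℝ) 1).indicator (fun _ => C₁ * B) lam := by
            refine lintegral_mono fun lam => ?_
            by_cases h : 1 / (2 * Real.sqrt ν) ≤ |lam| ∧ |lam| ≤ 1
            · rw [Set.indicator_of_mem (show lam ∈ Set.Icc (-1 : ℝ) 1 from abs_le.1 h.2)]
              calc ∫⁻ w, (R i).indicator G (i.insertNth lam w)
                  ≤ ∫⁻ w, (closedBall (0 : Fin m → ℝ) 1).indicator
                      (fun w => G (i.insertNth lam w)) w := by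
                    refine lintegral_mono fun w => ?_
                    by_cases hz : i.insertNth lam w ∈ R i
                    · rw [Set.indicator_of_mem hz, Set.indicator_of_mem]
                      refine mem_closedBall_zero_iff.2 ((pi_norm_le_iff_of_nonneg zero_le_one).2
                        fun j => ?_)
                      have := (norm_le_pi_norm (i.insertNth (α := fun _ => ℝ) lam w) (i.succAbove j)).trans
                        (mem_closedBall_zero_iff.1 hz.1)
                      simpa using this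
                    · rw [Set.indicator_of_notMem hz]; exact zero_le
                _ ≤ C₁ * B := by
                    rw [lintegral_indicator measurableSet_closedBall, hBdef, ← mul_assoc, ← hF]
                    exact hC₁b A M δ hM hδ hδ1 hA hAM f' hf' i lam h.1 h.2
            · have : ∀ w, i.insertNth lam w ∉ R i := by
                intro w hw
                refine h ⟨by simpa using hw.2, ?_⟩
                have := (norm_le_pi_norm (i.insertNth (α := fun _ => ℝ) lam w) i).trans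
                  (mem_closedBall_zero_iff.1 hw.1)
                simpa using this
              simp [Set.indicator_of_notMem (this _)]
        _ = 2 * C₁ * B := by
            rw [lintegral_indicator_const measurableSet_Icc, Real.volume_Icc]
            norm_num; ring
    · exact ((hGm.indicator (hRm i)).comp
        (Continuous.finInsertNth (A := fun _ => ℝ) i continuous_snd continuous_fst).measurable).aemeasurable
  calc _ ≤ ∫⁻ e, C₃ ^ ν * H e.1
          ∂(volume : Measure (EuclideanSpace ℝ (Fin (m + 1)))).toSphere := by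
        refine lintegral_mono fun e => ?_
        have he : ‖e.1‖ = 1 := by simpa using e.2
        rw [hHdef, ← ENNReal.mul_rpow_of_nonneg _ _ hν,
          show A e.1 = a e.1 by simp [A, he]]
        exact ENNReal.rpow_le_rpow (hC₃b δ hδ hδ1 _ _ he f hf) hν
    _ = C₃ ^ ν * ∫⁻ e, H e.1 ∂(volume : Measure (EuclideanSpace ℝ (Fin (m + 1)))).toSphere :=
        lintegral_const_mul' _ _ (ENNReal.rpow_ne_top_of_nonneg hν hC₃)
    _ ≤ C₃ ^ ν * (C₂ * ∫⁻ z, ∑ i, (R i).indicator G z) := by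
        refine mul_le_mul_right ((hC₂b H hHm).trans (mul_le_mul_right (lintegral_mono fun z => ?_) _)) _
        by_cases hz : 1 / 2 < ‖WithLp.toLp 2 z‖ ∧ ‖WithLp.toLp 2 z‖ < 1
        · rw [Set.indicator_of_mem (by exact hz)]
          set x := WithLp.toLp 2 z with hxdef
          have hx0 : 0 < ‖x‖ := by linarith [hz.1]
          obtain ⟨i, hi⟩ : ∃ i, 1 / (2 * Real.sqrt ν) ≤ |z i| := by
            by_contra hcon
            simp only [not_exists, not_le] at hcon
            have := norm_toLp_le z (b := 1 / (2 * Real.sqrt ν)) (by positivity) fun r => (hcon r).le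
            rw [show ((m + 1 : ℕ) : ℝ) = ν by simp [ν]] at this
            have h2 : Real.sqrt ν * (1 / (2 * Real.sqrt ν)) = 1 / 2 := by
              have : Real.sqrt ν ≠ 0 := by positivity
              field_simp
            linarith [hz.1]
          have hzR : z ∈ R i := by
            refine ⟨mem_closedBall_zero_iff.2 ((pi_norm_le_iff_of_nonneg zero_le_one).2 fun r => ?_), hi⟩
            exact (PiLp.norm_apply_le x r).trans hz.2.le
          refine le_trans ?_ (single_le_sum (fun j _ => zero_le) (mem_univ i))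
          rw [Set.indicator_of_mem hzR]
          refine ENNReal.rpow_le_rpow ?_ hν
          have hAn : A (‖x‖⁻¹ • x) = A x := by
            simp [A, norm_smul, hx0.ne']
          have hg : Measurable fun u : ℝ => avg 2 δ f' ((A x).ofLp + u • z) :=
            (measurable_avg 2 δ hf').comp (by fun_prop)
          refine le_trans (le_of_eq (lintegral_congr fun s => ?_)) (line_rescale hz.1.le hz.2.le _ hg)
          rw [hAn, smul_smul, WithLp.ofLp_add, WithLp.ofLp_smul, mul_comm s]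
        · rw [Set.indicator_of_notMem (by exact hz)]; exact zero_le
    _ = C₃ ^ ν * (C₂ * ∑ i, ∫⁻ z, (R i).indicator G z) := by
        rw [lintegral_finsetSum _ fun i _ => hGm.indicator (hRm i)]
    _ ≤ C₃ ^ ν * (C₂ * ∑ _i : Fin (m + 1), 2 * C₁ * B) :=
        mul_le_mul_right (mul_le_mul_right (sum_le_sum fun i _ => hsector i) _) _
    _ = _ := by
        rw [hBdef, sum_const, card_univ, Fintype.card_fin, nsmul_eq_mul]; ring

/-- The maximal conjecture for smooth selections. -/
theorem maximal_smooth (m : ℕ) (hm : 1 ≤ m)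
    (a : EuclideanSpace ℝ (Fin (m + 1)) → EuclideanSpace ℝ (Fin (m + 1)))
    (ha : ContDiff ℝ (⊤ : ℕ∞) a) {ε : ℝ} (hε : 0 < ε) :
    ∃ C : ℝ≥0∞, C ≠ ⊤ ∧ ∀ δ : ℝ, 0 < δ → δ < 1 →
      ∀ f : EuclideanSpace ℝ (Fin (m + 1)) → ℝ≥0∞, Measurable f →
        ∫⁻ e, ((∫⁻ y in tube δ (a e.1) e.1, f y) / volume (tube δ (a e.1) e.1)) ^ ((m : ℝ) + 1)
            ∂(volume : Measure (EuclideanSpace ℝ (Fin (m + 1)))).toSphere ≤
          C * ENNReal.ofReal (δ ^ (-ε)) * ∫⁻ y, f y ^ ((m : ℝ) + 1) := by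
  obtain ⟨k, hk⟩ := exists_nat_gt (2 * (m : ℝ) / ε)
  have hk0 : 0 < k := by
    have : (0 : ℝ) < k := lt_of_le_of_lt (by positivity) hk
    exact_mod_cast this
  have hA : ContDiffOn ℝ k (fun x => a (‖x‖⁻¹ • x)) {x | x ≠ 0} := by
    intro x hx
    exact ((ha.of_le (by exact_mod_cast le_top)).contDiffAt.comp x
      (((contDiffAt_norm ℝ hx).inv (norm_ne_zero_iff.2 hx)).smul contDiffAt_id)).contDiffWithinAt
  let Z : Set (EuclideanSpace ℝ (Fin (m + 1))) :=
    {x | 1 / (2 * Real.sqrt (m + 1)) ≤ ‖x‖} ∩ closedBall 0 (Real.sqrt (m + 1))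
  have hZc : IsCompact Z := (isCompact_closedBall _ _).inter_left (isClosed_le continuous_const continuous_norm)
  have hZ0 : Z ⊆ {x | x ≠ 0} := fun x hx h0 => by
    have h1 : 1 / (2 * Real.sqrt (m + 1)) ≤ ‖x‖ := hx.1
    rw [h0, norm_zero] at h1
    have : 0 < 1 / (2 * Real.sqrt ((m : ℝ) + 1)) := by positivity
    linarith
  have hopen : IsOpen {x : EuclideanSpace ℝ (Fin (m + 1)) | x ≠ 0} := isOpen_ne
  have hcont := (hA.continuousOn_iteratedFDerivWithin le_rfl hopen.uniqueDiffOn).congr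
    (fun x hx => (iteratedFDerivWithin_of_isOpen k hopen hx).symm)
  obtain ⟨M₀, hM₀⟩ := hZc.exists_bound_of_continuousOn (hcont.mono hZ0)
  set M := max M₀ 1
  obtain ⟨C, hC, hCb⟩ := maximal_bound m k hm hk0 (half_pos hε)
  refine ⟨C * ENNReal.ofReal (M ^ ((m : ℝ) / k)), ENNReal.mul_ne_top hC ENNReal.ofReal_ne_top,
    fun δ hδ hδ1 f hf => (hCb a M δ (le_max_right _ _) hδ hδ1 hA (fun x h1 h2 =>
      (hM₀ x ⟨h1, mem_closedBall_zero_iff.2 h2⟩).trans (le_max_left _ _)) f hf).trans ?_⟩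
  refine mul_le_mul_left ?_ _
  rw [mul_assoc C, ← ENNReal.ofReal_mul (by positivity)]
  refine mul_le_mul_right (ENNReal.ofReal_le_ofReal (mul_le_mul_of_nonneg_left
    (Real.rpow_le_rpow_of_exponent_ge hδ hδ1.le ?_) (by positivity))) _
  have : (m : ℝ) / k ≤ ε / 2 := by
    rw [div_lt_iff₀ hε] at hk
    rw [div_le_iff₀ (by exact_mod_cast hk0)]
    linarith
  linarith

end Vale.Agent.P127.Smooth
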