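import Vale.Agent.P127.Smooth.Roots
import Vale.Agent.P127.Smooth.Jac

/-!
The change of variables inequality for polynomial maps with bounded multiplicity, and the estimate
for line integrals along the lines `Q w + s • (w, lam)` of a polynomial family.
-/

open MeasureTheory Filter Topology Finset Function
open scoped ENNReal

namespace Vale.Agent.P127.Smooth

variable {n m : ℕ}

theorem contDiff_of_mem {L : ℕ} {f : (Fin n → ℝ) → ℝ} (h : f ∈ polySpace n L) :
    ContDiff ℝ 1 f := by
  induction h using Submodule.span_induction with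
  | mem a ha =>
    obtain ⟨α, rfl⟩ := ha
    unfold mono
    fun_prop
  | zero => exact contDiff_const
  | add x y _ _ hx hy => exact hx.add hy
  | smul c x _ hx => exact hx.const_smul c

theorem contDiff_map {D : ℕ} {F : (Fin n → ℝ) → Fin n → ℝ}
    (hF : ∀ i, (fun x => F x i) ∈ polySpace n D) : ContDiff ℝ 1 F :=
  contDiff_pi.2 fun i => contDiff_of_mem (hF i)

/-- Area inequality with bounded multiplicity for polynomial maps. -/
theorem lintegral_det_comp_le {D : ℕ} (F : (Fin n → ℝ) → Fin n → ℝ)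
    (hF : ∀ i, (fun x => F x i) ∈ polySpace n D) (g : (Fin n → ℝ) → ℝ≥0∞) (hg : Measurable g) :
    ∫⁻ x, ENNReal.ofReal |(fderiv ℝ F x).det| * g (F x) ≤
      ((n * D + 1) ^ n : ℕ) * ∫⁻ y, g y := by
  classical
  have hC := contDiff_map hF
  have hcont : Continuous fun x => (fderiv ℝ F x).det :=
    ContinuousLinearMap.continuous_det.comp (hC.continuous_fderiv one_ne_zero)
  let O : Set (Fin n → ℝ) := {x | (fderiv ℝ F x).det ≠ 0}
  have hO : IsOpen O := isOpen_ne_fun hcont continuous_const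
  have hstrict : ∀ x ∈ O, ∃ L : (Fin n → ℝ) ≃L[ℝ] (Fin n → ℝ),
      HasStrictFDerivAt F (L : (Fin n → ℝ) →L[ℝ] _) x := fun x hx =>
    ⟨(fderiv ℝ F x).toContinuousLinearEquivOfDetNeZero hx, by
      simpa using hC.contDiffAt.hasStrictFDerivAt one_ne_zero⟩
  have hnb : ∀ x ∈ O, ∃ U ∈ 𝓝 x, Set.InjOn F U := by
    intro x hx
    obtain ⟨L, hL⟩ := hstrict x hx
    refine ⟨{z | hL.localInverse F L x (F z) = z}, hL.eventually_left_inverse, fun a ha b hb h => ?_⟩
    rw [← ha, ← hb, h]
  choose! U hU hinj using hnb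
  have hball : ∀ x ∈ O, ∃ q : ℚ, 0 < q ∧ Metric.ball x (q : ℝ) ⊆ U x ∩ O := by
    intro x hx
    obtain ⟨ε, hε, hb⟩ := Metric.mem_nhds_iff.1 (Filter.inter_mem (hU x hx) (hO.mem_nhds hx))
    obtain ⟨q, hq0, hq⟩ := exists_rat_btwn hε
    exact ⟨q, by exact_mod_cast hq0, (Metric.ball_subset_ball hq.le).trans hb⟩
  choose! q hq0 hqb using hball
  obtain ⟨T, hTO, hTc, hTcov⟩ := TopologicalSpace.countable_cover_nhdsWithin (s := O)
    (f := fun x => Metric.ball x (q x : ℝ))
    fun x hx => mem_nhdsWithin_of_mem_nhds (Metric.ball_mem_nhds x (by exact_mod_cast hq0 x hx))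
  rcases T.eq_empty_or_nonempty with hT | hTne
  · have hz : ∀ x, (fderiv ℝ F x).det = 0 := fun x => by
      by_contra hne
      have := hTcov (show x ∈ O from hne)
      simp [hT] at this
    simp [hz]
  obtain ⟨t, ht⟩ := hTc.exists_eq_range hTne
  have htO : ∀ k, t k ∈ O := fun k => hTO (ht ▸ Set.mem_range_self k)
  let B : ℕ → Set (Fin n → ℝ) := disjointed fun k => Metric.ball (t k) (q (t k) : ℝ)
  have hBm : ∀ k, MeasurableSet (B k) := MeasurableSet.disjointed fun k => measurableSet_ball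
  have hBsub : ∀ k, B k ⊆ U (t k) ∩ O := fun k =>
    (disjointed_subset _ k).trans (hqb _ (htO k))
  have hBd : Pairwise (Disjoint on B) := disjoint_disjointed _
  have hBO : O = ⋃ k, B k := by
    refine Set.Subset.antisymm ?_ (Set.iUnion_subset fun k => (hBsub k).trans Set.inter_subset_right)
    simp only [B, iUnion_disjointed]
    intro x hx
    have := hTcov hx
    simp only [ht, Set.biUnion_range] at this
    exact this
  have hinjB : ∀ k, Set.InjOn F (B k) := fun k =>
    (hinj _ (htO k)).mono ((hBsub k).trans Set.inter_subset_left)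
  have hder : ∀ k, ∀ x ∈ B k, HasFDerivWithinAt F (fderiv ℝ F x) (B k) x := fun k x _ =>
    ((hC.differentiable one_ne_zero) x).hasFDerivAt.hasFDerivWithinAt
  have himg : ∀ k, MeasurableSet (F '' B k) := fun k =>
    measurable_image_of_fderivWithin (hBm k) (hder k) (hinjB k)
  calc ∫⁻ x, ENNReal.ofReal |(fderiv ℝ F x).det| * g (F x)
      = ∫⁻ x in O, ENNReal.ofReal |(fderiv ℝ F x).det| * g (F x) := by
        refine (setLIntegral_eq_of_support_subset fun x hx => ?_).symm
        intro h0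
        exact hx (by simp [h0])
    _ = ∑' k, ∫⁻ x in B k, ENNReal.ofReal |(fderiv ℝ F x).det| * g (F x) := by
        rw [hBO, lintegral_iUnion hBm hBd]
    _ = ∑' k, ∫⁻ y, (F '' B k).indicator g y := by
        refine tsum_congr fun k => ?_
        rw [lintegral_indicator (himg k),
          lintegral_image_eq_lintegral_abs_det_fderiv_mul volume (hBm k) (hder k) (hinjB k)]
    _ = ∫⁻ y, ∑' k, (F '' B k).indicator g y :=
        (lintegral_tsum fun k => (hg.indicator (himg k)).aemeasurable).symm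
    _ ≤ ∫⁻ y, ((n * D + 1) ^ n : ℕ) * g y := by
        refine lintegral_mono fun y => ?_
        rw [ENNReal.tsum_eq_iSup_sum]
        refine iSup_le fun s => ?_
        let s' := s.filter fun k => y ∈ F '' B k
        have hsum : ∑ k ∈ s, (F '' B k).indicator g y = (s'.card : ℝ≥0∞) * g y := by
          simp [s', Set.indicator_apply, Finset.sum_ite]
        rw [hsum]
        refine mul_le_mul_left (Nat.cast_le.2 ?_) _
        have hpre : ∀ k ∈ s', ∃ x, x ∈ B k ∧ F x = y := fun k hk => (mem_filter.1 hk).2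
        choose! pre hp1 hp2 using hpre
        have hinjp : Set.InjOn pre s' := fun a ha b hb hab => by
          by_contra hne
          exact Set.disjoint_left.1 (hBd hne) (hp1 a ha) (hab ▸ hp1 b hb)
        rw [← card_image_of_injOn hinjp]
        refine card_roots_le F hF y _ fun x hx => ?_
        obtain ⟨k, hk, rfl⟩ := mem_image.1 hx
        exact ⟨hp2 k hk, hstrict _ (hBsub k (hp1 k hk)).2⟩
    _ = _ := lintegral_const_mul _ hg

/-- `∫ h = ∫ over w of ∫ over s of h (insertNth i s w)`. -/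
theorem lintegral_insertNth (i : Fin (m + 1)) (h : (Fin (m + 1) → ℝ) → ℝ≥0∞) (hh : Measurable h) :
    ∫⁻ z, h z = ∫⁻ w : Fin m → ℝ, ∫⁻ s : ℝ, h (i.insertNth s w) := by
  have e := volume_preserving_piFinSuccAbove (fun _ : Fin (m + 1) => ℝ) i
  rw [← e.symm.lintegral_comp hh]
  simp only [MeasurableEquiv.piFinSuccAbove_symm_apply, Measure.volume_eq_prod]
  rw [lintegral_prod_symm]
  · rfl
  · exact (hh.comp (MeasurableEquiv.piFinSuccAbove (fun _ : Fin (m + 1) => ℝ) i).symm.measurable).aemeasurable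

/-- The map `z ↦ Q z + z i • update z i lam`. -/
def lineMap (i : Fin (m + 1)) (lam : ℝ) (Q : (Fin (m + 1) → ℝ) → Fin (m + 1) → ℝ) :
    (Fin (m + 1) → ℝ) → Fin (m + 1) → ℝ :=
  fun z r => Q z r + z i * (if r = i then lam else z r)

theorem lineMap_mem {D : ℕ} (i : Fin (m + 1)) (lam : ℝ)
    (Q : (Fin (m + 1) → ℝ) → Fin (m + 1) → ℝ)
    (hQ : ∀ r, (fun z => Q z r) ∈ polySpace (m + 1) D) (r : Fin (m + 1)) :
    (fun z => lineMap i lam Q z r) ∈ polySpace (m + 1) (D + 2) := by
  refine add_mem (polySpace_mono (by omega) (hQ r)) (polySpace_mono (show 1 + 1 ≤ D + 2 by omega) ?_)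
  refine mul_mem_poly (coord_mem i) ?_
  by_cases h : r = i
  · simp only [if_pos h]; exact const_mem _
  · simp only [if_neg h]; exact coord_mem r

/-- The determinant of the derivative of `lineMap`. -/
theorem det_lineMap {D : ℕ} (i : Fin (m + 1)) {lam : ℝ} (hlam : lam ≠ 0)
    (Q : (Fin (m + 1) → ℝ) → Fin (m + 1) → ℝ)
    (hQ : ∀ r, (fun z => Q z r) ∈ polySpace (m + 1) D)
    (hind : ∀ z t, Q (update z i t) = Q z) (w : Fin m → ℝ) :
    ∃ P : Polynomial ℝ, P.Monic ∧ P.natDegree = m ∧ ∀ s : ℝ,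
      (fderiv ℝ (lineMap i lam Q) (i.insertNth s w)).det = lam * P.eval s := by
  let A : Matrix (Fin (m + 1)) (Fin (m + 1)) ℝ := Matrix.of fun r j =>
    fderiv ℝ Q (i.insertNth 0 w) (Pi.single j 1) r
  let x : Fin (m + 1) → ℝ := fun r => if r = i then lam else (i.insertNth (α := fun _ => ℝ) 0 w) r
  refine ⟨_, Matrix.charpoly_monic (-(Matrix.of fun r j : Fin m =>
        A (i.succAbove r) (i.succAbove j) - x (i.succAbove r) / lam * A i (i.succAbove j))),
    (Matrix.charpoly_natDegree_eq_dim _).trans (Fintype.card_fin m), fun s => ?_⟩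
  rw [← det_shift i A x s lam (by simp [x]) hlam, ContinuousLinearMap.det,
    ← LinearMap.det_toMatrix']
  congr 1
  have hdQ : ∀ z, HasFDerivAt Q (fderiv ℝ Q z) z := fun z =>
    ((contDiff_map hQ).differentiable one_ne_zero z).hasFDerivAt
  have hz : i.insertNth s w = i.insertNth 0 w + s • (Pi.single i 1 : Fin (m + 1) → ℝ) := by
    funext r
    refine Fin.succAboveCases i ?_ (fun j => ?_) r <;> simp
  have htr : fderiv ℝ Q (i.insertNth s w) = fderiv ℝ Q (i.insertNth 0 w) := by
    rw [hz, ← fderiv_comp_add_right]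
    congr 1
    funext z
    rw [← hind z (z i + s)]
    congr 1
    funext r
    by_cases h : r = i <;> simp [h]
  have hcol : fderiv ℝ Q (i.insertNth s w) (Pi.single i 1) = 0 := by
    have h1 := (hdQ (i.insertNth s w)).hasLineDerivAt (Pi.single i 1)
    refine h1.unique ?_
    have : (fun t : ℝ => Q (i.insertNth s w + t • Pi.single i 1)) = fun _ => Q (i.insertNth s w) := by
      funext t
      rw [← hind (i.insertNth s w) (s + t)]
      congr 1
      funext r
      refine Fin.succAboveCases i ?_ (fun j => ?_) r <;> simp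
    show HasDerivAt _ _ _
    rw [this]; exact hasDerivAt_const _ _
  set z : Fin (m + 1) → ℝ := i.insertNth s w with hzdef
  have hF : HasFDerivAt (lineMap i lam Q) (ContinuousLinearMap.pi fun r =>
      (ContinuousLinearMap.proj r).comp (fderiv ℝ Q z) +
        (if r = i then lam • ContinuousLinearMap.proj (R := ℝ) i
         else z i • ContinuousLinearMap.proj (R := ℝ) r + z r • ContinuousLinearMap.proj (R := ℝ) i))
      z := by
    refine hasFDerivAt_pi.2 fun r => ?_
    refine ((hasFDerivAt_pi'.1 (hdQ z)) r).add ?_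
    by_cases h : r = i
    · subst h
      simp only [if_true]
      exact (hasFDerivAt_apply r z).mul_const lam
    · simp only [if_neg h]
      exact (hasFDerivAt_apply i z).mul (hasFDerivAt_apply r z)
  rw [hF.fderiv]
  ext r j
  rw [LinearMap.toMatrix'_apply]
  simp only [ContinuousLinearMap.coe_coe, ContinuousLinearMap.pi_apply, ContinuousLinearMap.add_apply,
    ContinuousLinearMap.coe_comp, Function.comp_apply, ContinuousLinearMap.proj_apply,
    Matrix.of_apply, A, x]
  have hzi : z i = s := by simp [hzdef]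
  have hzr : ∀ r, r ≠ i → z r = i.insertNth (α := fun _ => ℝ) 0 w r := by
    intro r hr
    obtain ⟨r', rfl⟩ := Fin.exists_succAbove_eq hr
    simp [hzdef]
  by_cases hj : j = i
  · subst hj
    simp [hcol]
    by_cases hr : r = j
    · simp [hr]
    · simp [hr, hzr r hr]
  · rw [htr]
    by_cases hr : r = i
    · subst hr; simp [hj, Ne.symm hj, Pi.single_apply]
    · simp [hr, hj, Ne.symm hj, hzi, Pi.single_apply, eq_comm]

/-- The estimate for one polynomial family of lines. -/
theorem slice_bound (m D : ℕ) {p : ℝ} (hp : (m : ℝ) + 1 < p) :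
    ∃ C : ℝ≥0∞, C ≠ ⊤ ∧ ∀ (i : Fin (m + 1)) (lam : ℝ), lam ≠ 0 →
      ∀ Q : (Fin (m + 1) → ℝ) → Fin (m + 1) → ℝ,
        (∀ r, (fun z => Q z r) ∈ polySpace (m + 1) D) → (∀ z t, Q (update z i t) = Q z) →
      ∀ g : (Fin (m + 1) → ℝ) → ℝ≥0∞, Measurable g →
        ∫⁻ w : Fin m → ℝ,
          (∫⁻ s in Set.Icc (-2 : ℝ) 2, g (lineMap i lam Q (i.insertNth s w))) ^ p ≤
          C * (ENNReal.ofReal |lam|)⁻¹ * ∫⁻ y, g y ^ p := by
  have hm0 : (0 : ℝ) ≤ m := Nat.cast_nonneg m
  have hp1 : 1 < p := by linarith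
  have hq : (m : ℝ) * (1 / (p - 1)) < 1 := by
    rw [mul_one_div, div_lt_one (by linarith)]; linarith
  obtain ⟨C₀, hC₀, hC₀b⟩ := lintegral_poly_rpow_le (m := m)
    (one_div_nonneg.2 (by linarith : (0 : ℝ) ≤ p - 1)) hq
  refine ⟨C₀ ^ (p - 1) * (((m + 1) * (D + 2) + 1) ^ (m + 1) : ℕ),
    ENNReal.mul_ne_top (ENNReal.rpow_ne_top_of_nonneg (by linarith) hC₀) (ENNReal.natCast_ne_top _),
    fun i lam hlam Q hQ hind g hg => ?_⟩
  have hFm := lineMap_mem i lam Q hQ
  have hFc : Continuous (lineMap i lam Q) := (contDiff_map hFm).continuous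
  let J : (Fin (m + 1) → ℝ) → ℝ≥0∞ := fun z =>
    ENNReal.ofReal |(fderiv ℝ (lineMap i lam Q) z).det|
  have hJm : Measurable J :=
    ((ContinuousLinearMap.continuous_det.comp
      ((contDiff_map hFm).continuous_fderiv one_ne_zero)).abs.measurable).ennreal_ofReal
  have hL0 : ENNReal.ofReal |lam| ≠ 0 := by simp [hlam]
  have key : ∀ w : Fin m → ℝ,
      (∫⁻ s in Set.Icc (-2 : ℝ) 2, g (lineMap i lam Q (i.insertNth s w))) ^ p ≤
        C₀ ^ (p - 1) * (ENNReal.ofReal |lam|)⁻¹ *
          ∫⁻ s : ℝ, J (i.insertNth s w) * g (lineMap i lam Q (i.insertNth s w)) ^ p := by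
    intro w
    obtain ⟨P, hPm, hPd, hPe⟩ := det_lineMap i hlam Q hQ hind w
    let a : ℝ → ℝ≥0∞ := fun s => ENNReal.ofReal |P.eval s|
    let G : ℝ → ℝ≥0∞ := fun s => g (lineMap i lam Q (i.insertNth s w))
    have ha : Measurable a := P.continuous.abs.measurable.ennreal_ofReal
    have hins : Continuous fun s : ℝ => (i.insertNth s w : Fin (m + 1) → ℝ) :=
      Continuous.finInsertNth (A := fun _ => ℝ) i continuous_id continuous_const
    have hG : Measurable G := hg.comp (hFc.comp hins).measurable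
    have hJ : ∀ s, J (i.insertNth s w) = ENNReal.ofReal |lam| * a s := fun s => by
      simp [J, a, hPe, abs_mul, ENNReal.ofReal_mul]
    have hpc : p.HolderConjugate (p / (p - 1)) := Real.HolderConjugate.conjExponent hp1
    have hne : ∀ᵐ s ∂volume.restrict (Set.Icc (-2 : ℝ) 2), a s ≠ 0 := by
      refine ae_restrict_of_ae (ae_iff.2 (measure_mono_null (fun s hs => ?_)
        ((P.roots.toFinset : Set ℝ).toFinite.countable.measure_zero volume)))
      simp only [a, ne_eq, not_not, Set.mem_setOf_eq, ENNReal.ofReal_eq_zero, abs_nonpos_iff] at hs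
      simp [hPm.ne_zero, hs]
    have hol := ENNReal.lintegral_mul_le_Lp_mul_Lq (volume.restrict (Set.Icc (-2 : ℝ) 2)) hpc
      (f := fun s => G s * a s ^ (1 / p)) (g := fun s => a s ^ (-(1 / p)))
      (hG.mul (ha.pow_const _)).aemeasurable (ha.pow_const _).aemeasurable
    have heq : ∫⁻ s in Set.Icc (-2 : ℝ) 2, G s =
        ∫⁻ s in Set.Icc (-2 : ℝ) 2, ((fun s => G s * a s ^ (1 / p)) * fun s => a s ^ (-(1 / p))) s := by
      refine lintegral_congr_ae (hne.mono fun s hs => ?_)
      simp only [Pi.mul_apply]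
      rw [mul_assoc, ← ENNReal.rpow_add _ _ hs ENNReal.ofReal_ne_top]; simp
    show (∫⁻ s in Set.Icc (-2 : ℝ) 2, G s) ^ p ≤ _
    rw [heq]
    refine (ENNReal.rpow_le_rpow hol (by linarith)).trans ?_
    rw [ENNReal.mul_rpow_of_nonneg _ _ (by linarith), ← ENNReal.rpow_mul, ← ENNReal.rpow_mul,
      one_div_mul_cancel (by linarith : p ≠ 0), ENNReal.rpow_one,
      show 1 / (p / (p - 1)) * p = p - 1 by field_simp]
    have e1 : ∀ s, (G s * a s ^ (1 / p)) ^ p = G s ^ p * a s := fun s => by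
      rw [ENNReal.mul_rpow_of_nonneg _ _ (by linarith), ← ENNReal.rpow_mul,
        one_div_mul_cancel (by linarith : p ≠ 0), ENNReal.rpow_one]
    have e2 : ∀ s, (a s ^ (-(1 / p))) ^ (p / (p - 1)) = a s ^ (-(1 / (p - 1))) := fun s => by
      rw [← ENNReal.rpow_mul]
      congr 1
      field_simp
    simp only [e1, e2]
    calc (∫⁻ s in Set.Icc (-2 : ℝ) 2, G s ^ p * a s) *
          (∫⁻ s in Set.Icc (-2 : ℝ) 2, a s ^ (-(1 / (p - 1)))) ^ (p - 1)
        ≤ (∫⁻ s : ℝ, G s ^ p * a s) * C₀ ^ (p - 1) :=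
          mul_le_mul' (setLIntegral_le_lintegral _ _)
            (ENNReal.rpow_le_rpow (hC₀b P hPm hPd) (by linarith))
      _ = C₀ ^ (p - 1) * ((ENNReal.ofReal |lam|)⁻¹ *
            ∫⁻ s : ℝ, ENNReal.ofReal |lam| * (a s * G s ^ p)) := by
          rw [lintegral_const_mul' _ _ ENNReal.ofReal_ne_top, ← mul_assoc _ (ENNReal.ofReal |lam|),
            ENNReal.inv_mul_cancel hL0 ENNReal.ofReal_ne_top, one_mul, mul_comm]
          simp_rw [mul_comm (a _)]
      _ = _ := by
          simp_rw [← mul_assoc, ← hJ]; rfl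
  calc _ ≤ ∫⁻ w : Fin m → ℝ, C₀ ^ (p - 1) * (ENNReal.ofReal |lam|)⁻¹ *
        ∫⁻ s : ℝ, J (i.insertNth s w) * g (lineMap i lam Q (i.insertNth s w)) ^ p :=
        lintegral_mono key
    _ = C₀ ^ (p - 1) * (ENNReal.ofReal |lam|)⁻¹ * ∫⁻ z, J z * g (lineMap i lam Q z) ^ p := by
        rw [lintegral_const_mul' _ _ (ENNReal.mul_ne_top
          (ENNReal.rpow_ne_top_of_nonneg (by linarith) hC₀) (ENNReal.inv_ne_top.2 hL0)),
          lintegral_insertNth i (fun z => J z * g (lineMap i lam Q z) ^ p)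
            (hJm.mul ((hg.comp hFc.measurable).pow_const p))]
    _ ≤ C₀ ^ (p - 1) * (ENNReal.ofReal |lam|)⁻¹ *
        ((((m + 1) * (D + 2) + 1) ^ (m + 1) : ℕ) * ∫⁻ y, g y ^ p) :=
        mul_le_mul_right (lintegral_det_comp_le _ hFm _ (hg.pow_const p)) _
    _ = _ := by ring

end Vale.Agent.P127.Smooth
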