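import Mathlib

/-!
Polynomial functions on `Fin n → ℝ` and a bound for the number of nondegenerate solutions of a
square polynomial system, by counting dimensions.
-/

open Filter Finset Submodule Topology

namespace Vale.Agent.P127.Smooth

variable {n : ℕ}

/-- The monomial function with exponent vector `α`. -/
def mono (α : Fin n → ℕ) : (Fin n → ℝ) → ℝ := fun x => ∏ i, x i ^ α i

/-- Polynomial functions of degree at most `L` in each variable. -/
def polySpace (n L : ℕ) : Submodule ℝ ((Fin n → ℝ) → ℝ) :=
  span ℝ (Set.range fun α : Fin n → Fin (L + 1) => mono fun i => (α i : ℕ))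

instance (L : ℕ) : FiniteDimensional ℝ (polySpace n L) :=
  FiniteDimensional.span_of_finite ℝ (Set.finite_range _)

theorem finrank_polySpace (L : ℕ) : Module.finrank ℝ (polySpace n L) ≤ (L + 1) ^ n := by
  refine (finrank_range_le_card _).trans ?_
  simp

theorem mono_mem {L : ℕ} {α : Fin n → ℕ} (h : ∀ i, α i ≤ L) : mono α ∈ polySpace n L :=
  subset_span ⟨fun i => ⟨α i, Nat.lt_succ_of_le (h i)⟩, rfl⟩

theorem polySpace_mono {L M : ℕ} (h : L ≤ M) : polySpace n L ≤ polySpace n M := by
  refine span_le.2 ?_
  rintro _ ⟨α, rfl⟩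
  exact mono_mem fun i => (Nat.le_of_lt_succ (α i).2).trans h

theorem const_mem {L : ℕ} (c : ℝ) : (fun _ : Fin n → ℝ => c) ∈ polySpace n L := by
  have : (fun _ : Fin n → ℝ => c) = c • mono (fun _ : Fin n => 0) := by
    funext x; simp [mono]
  rw [this]; exact smul_mem _ _ (mono_mem fun _ => Nat.zero_le _)

theorem coord_mem (i : Fin n) : (fun x : Fin n → ℝ => x i) ∈ polySpace n 1 := by
  have : (fun x : Fin n → ℝ => x i) = mono (Pi.single i 1) := by
    funext x
    rw [mono, Finset.prod_eq_single i]
    · simp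
    · intro j _ hj; simp [Pi.single_eq_of_ne hj]
    · simp
  rw [this]
  refine mono_mem fun j => ?_
  by_cases h : j = i <;> simp [h]

theorem mul_mem_poly {L M : ℕ} {f g : (Fin n → ℝ) → ℝ} (hf : f ∈ polySpace n L)
    (hg : g ∈ polySpace n M) : f * g ∈ polySpace n (L + M) := by
  induction hf using span_induction with
  | mem a ha =>
    induction hg using span_induction with
    | mem b hb =>
      obtain ⟨α, rfl⟩ := ha
      obtain ⟨β, rfl⟩ := hb
      have : (mono fun i => (α i : ℕ)) * (mono fun i => (β i : ℕ))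
          = mono fun i => (α i : ℕ) + β i := by
        funext x; simp [mono, pow_add, Finset.prod_mul_distrib]
      rw [this]
      exact mono_mem fun i => add_le_add (Nat.le_of_lt_succ (α i).2) (Nat.le_of_lt_succ (β i).2)
    | zero => simp
    | add x y _ _ hx hy => rw [mul_add]; exact add_mem hx hy
    | smul c x _ hx => rw [mul_smul_comm]; exact smul_mem _ _ hx
  | zero => simp
  | add x y _ _ hx hy => rw [add_mul]; exact add_mem hx hy
  | smul c x _ hx => rw [smul_mul_assoc]; exact smul_mem _ _ hx

theorem prod_mem_poly {ι : Type*} (s : Finset ι) (e : ι → ℕ) (f : ι → (Fin n → ℝ) → ℝ)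
    (h : ∀ i ∈ s, f i ∈ polySpace n (e i)) : ∏ i ∈ s, f i ∈ polySpace n (∑ i ∈ s, e i) := by
  classical
  induction s using Finset.induction with
  | empty => simpa [Pi.one_def] using const_mem (n := n) (L := 0) 1
  | insert a s ha ih =>
    rw [Finset.prod_insert ha, Finset.sum_insert ha]
    exact mul_mem_poly (h a (by simp)) (ih fun i hi => h i (by simp [hi]))

theorem pow_mem_poly {L : ℕ} {f : (Fin n → ℝ) → ℝ} (h : f ∈ polySpace n L) (j : ℕ) :
    f ^ j ∈ polySpace n (j * L) := by
  simpa using prod_mem_poly (range j) (fun _ => L) (fun _ => f) fun _ _ => h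

theorem continuous_of_mem {L : ℕ} {f : (Fin n → ℝ) → ℝ} (h : f ∈ polySpace n L) :
    Continuous f := by
  induction h using span_induction with
  | mem a ha => obtain ⟨α, rfl⟩ := ha; unfold mono; fun_prop
  | zero => exact continuous_zero
  | add x y _ _ hx hy => exact hx.add hy
  | smul c x _ hx => exact hx.const_smul c

/-- A polynomial vanishing near a point has zero coefficients. -/
theorem coeff_eq_zero {B : ℕ} (c : (Fin n → Fin B) → ℝ) (y : Fin n → ℝ)
    (h : ∀ᶠ z in 𝓝 y, ∑ β, c β * mono (fun i => (β i : ℕ)) z = 0) : c = 0 := by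
  classical
  obtain ⟨ε, hε, hball⟩ := Metric.eventually_nhds_iff_ball.1 h
  let e : (Fin n → Fin B) → (Fin n →₀ ℕ) := fun β =>
    Finsupp.equivFunOnFinite.symm fun i => (β i : ℕ)
  have he : Function.Injective e := fun a b hab => by
    funext i; exact Fin.ext (congrArg (fun q : Fin n →₀ ℕ => q i) hab)
  let p : MvPolynomial (Fin n) ℝ := ∑ β, MvPolynomial.monomial (e β) (c β)
  have hp : p = 0 := by
    refine MvPolynomial.funext_set (fun i => Set.Ioo (y i - ε) (y i + ε))
      (fun i => Set.Ioo_infinite (by linarith)) fun x hx => ?_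
    have hxb : x ∈ Metric.ball y ε := by
      rw [Metric.mem_ball, dist_pi_lt_iff hε]
      intro i
      have := hx i trivial
      rw [Real.dist_eq, abs_lt]; constructor <;> linarith [this.1, this.2]
    rw [map_zero, ← hball x hxb]
    simp [p, e, mono, MvPolynomial.eval_monomial, Finsupp.prod_fintype]
  funext β
  have := congrArg (MvPolynomial.coeff (e β)) hp
  simpa [p, MvPolynomial.coeff_sum, MvPolynomial.coeff_monomial, he.eq_iff] using this

/-- A polynomial map of degree at most `d` has at most `(n d + 1) ^ n` nondegenerate solutions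
over each point. -/
theorem card_roots_le {d : ℕ} (F : (Fin n → ℝ) → Fin n → ℝ)
    (hF : ∀ i, (fun x => F x i) ∈ polySpace n d) (y : Fin n → ℝ) (S : Finset (Fin n → ℝ))
    (hS : ∀ p ∈ S, F p = y ∧
      ∃ L : (Fin n → ℝ) ≃L[ℝ] (Fin n → ℝ), HasStrictFDerivAt F (L : (Fin n → ℝ) →L[ℝ] _) p) :
    S.card ≤ (n * d + 1) ^ n := by
  classical
  obtain ⟨G, hG⟩ : ∃ G, G = 2 * S.card := ⟨_, rfl⟩
  let w : (Fin n → ℝ) → (Fin n → ℝ) → ℝ := fun q x => ∑ j, (x j - q j) ^ 2
  let g : S → (Fin n → ℝ) → ℝ := fun p x => ∏ q ∈ S.erase p.1, w q x / w q p.1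
  have hw : ∀ q p, q ≠ p → w q p ≠ 0 := by
    intro q p hne h0
    refine hne (funext fun j => ?_)
    have := (Finset.sum_eq_zero_iff_of_nonneg fun j _ => sq_nonneg (p j - q j)).1 h0 j
      (mem_univ j)
    rw [sq_eq_zero_iff, sub_eq_zero] at this
    exact this.symm
  have hwm : ∀ q c, (fun x => w q x / c) ∈ polySpace n 2 := by
    intro q c
    have h1 : ∀ j, (fun x : Fin n → ℝ => x j - q j) ∈ polySpace n 1 := fun j =>
      sub_mem (coord_mem j) (const_mem _)
    have : (fun x => w q x / c) = c⁻¹ • ∑ j, (fun x : Fin n → ℝ => x j - q j) ^ 2 := by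
      funext x; simp [w, div_eq_inv_mul]
    rw [this]
    exact smul_mem _ _ (sum_mem fun j _ => by simpa using pow_mem_poly (h1 j) 2)
  have hgm : ∀ p, g p ∈ polySpace n G := by
    intro p
    have h := prod_mem_poly (S.erase p.1) (fun _ => 2) (fun q x => w q x / w q p.1)
      fun q _ => hwm q _
    have e : (∏ q ∈ S.erase p.1, fun x => w q x / w q p.1) = g p := by
      funext x; simp [g]
    rw [e] at h
    refine polySpace_mono ?_ h
    rw [hG, Finset.sum_const, smul_eq_mul]
    exact (Nat.mul_le_mul_right 2 (card_le_card (erase_subset _ _))).trans (by omega)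
  have hgd : ∀ p q : S, g p q.1 = if p = q then 1 else 0 := by
    intro p q
    split_ifs with h
    · subst h
      exact prod_eq_one fun r hr => div_self (hw _ _ (ne_of_mem_erase hr))
    · refine prod_eq_zero (mem_erase.2 ⟨fun e => h (Subtype.ext e.symm), q.2⟩) ?_
      simp [w]
  let fam : (S × (Fin n → Fin (G + 1))) → (Fin n → ℝ) → ℝ := fun a x =>
    g a.1 x * ∏ i, F x i ^ (a.2 i : ℕ)
  have hfam : ∀ a, fam a ∈ polySpace n (G + n * (G * d)) := by
    intro a
    have h := prod_mem_poly univ (fun i => (a.2 i : ℕ) * d) (fun i => (fun x => F x i) ^ (a.2 i : ℕ))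
      fun i _ => pow_mem_poly (hF i) _
    have h2 := mul_mem_poly (hgm a.1) h
    have e : fam a = g a.1 * ∏ i, (fun x => F x i) ^ (a.2 i : ℕ) := by
      funext x; simp [fam]
    rw [e]
    refine polySpace_mono (Nat.add_le_add_left ?_ _) h2
    calc ∑ i, (a.2 i : ℕ) * d ≤ ∑ _i : Fin n, G * d :=
          sum_le_sum fun i _ => Nat.mul_le_mul_right d (Nat.le_of_lt_succ (a.2 i).2)
      _ = n * (G * d) := by simp
  choose L hL using fun p : S => (hS p.1 p.2).2
  let s : S → (Fin n → ℝ) → (Fin n → ℝ) := fun p => (hL p).localInverse F (L p) p.1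
  have hFy : ∀ p : S, F p.1 = y := fun p => (hS p.1 p.2).1
  have hsy : ∀ p : S, s p y = p.1 := fun p => by
    have := (hL p).localInverse_apply_image
    rw [hFy p] at this; exact this
  have hsc : ∀ p : S, ContinuousAt (s p) y := fun p => by
    have := (hL p).localInverse_continuousAt
    rw [hFy p] at this; exact this
  have hsr : ∀ p : S, ∀ᶠ z in 𝓝 y, F (s p z) = z := fun p => by
    have := (hL p).eventually_right_inverse
    rw [hFy p] at this; exact this
  have hli : LinearIndependent ℝ fam := by
    rw [Fintype.linearIndependent_iff]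
    intro c hc a
    let M : (Fin n → ℝ) → Matrix S S ℝ := fun z => Matrix.of fun q p => g p (s q z)
    have hM : ContinuousAt (fun z => (M z).det) y := by
      have hent : ∀ q p, ContinuousAt (fun z => g p (s q z)) y := fun q p =>
        (continuous_of_mem (hgm p)).continuousAt.comp (hsc q)
      exact (Continuous.matrix_det (A := fun m : Matrix S S ℝ => m) continuous_id).continuousAt.comp
        (continuousAt_pi.2 fun q => continuousAt_pi.2 fun p => hent q p)
    have hM1 : M y = 1 := by
      ext q p; simp [M, hsy, hgd, Matrix.one_apply, eq_comm]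
    have hdet : ∀ᶠ z in 𝓝 y, (M z).det ≠ 0 := hM.eventually_ne (by simp [hM1])
    have key : ∀ᶠ z in 𝓝 y, ∀ p : S, ∑ β, c (p, β) * mono (fun i => (β i : ℕ)) z = 0 := by
      filter_upwards [hdet, eventually_all.2 hsr] with z hz hzs
      let v : S → ℝ := fun p => ∑ β, c (p, β) * mono (fun i => (β i : ℕ)) z
      have hv : (M z).mulVec v = 0 := by
        funext q
        have := congrFun hc (s q z)
        simp only [Finset.sum_apply, Pi.smul_apply, smul_eq_mul, Pi.zero_apply,
          Fintype.sum_prod_type, fam, hzs q] at this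
        simp only [Pi.zero_apply]
        rw [← this]
        simp only [Matrix.mulVec, dotProduct, M, Matrix.of_apply, v, mono, Finset.mul_sum]
        exact sum_congr rfl fun p _ => sum_congr rfl fun β _ => by ring
      exact congrFun (Matrix.eq_zero_of_mulVec_eq_zero hz hv)
    have := coeff_eq_zero (fun β => c (a.1, β)) y (key.mono fun z hz => hz a.1)
    exact congrFun this a.2
  have hli' : LinearIndependent ℝ
      (fun a => (⟨fam a, hfam a⟩ : polySpace n (G + n * (G * d)))) :=
    LinearIndependent.of_comp (polySpace n _).subtype hli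
  have hcard := hli'.fintype_card_le_finrank.trans (finrank_polySpace _)
  rw [Fintype.card_prod, Fintype.card_coe, Fintype.card_fun, Fintype.card_fin, Fintype.card_fin]
    at hcard
  have h2 : (G + n * (G * d) + 1) ^ n ≤ (n * d + 1) ^ n * (G + 1) ^ n := by
    rw [← mul_pow]; exact Nat.pow_le_pow_left (by nlinarith) n
  exact Nat.le_of_mul_le_mul_right (hcard.trans h2) (by positivity)

end Vale.Agent.P127.Smooth
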